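import Vale.Agent.P184.H174.Pot

/-!
# P184 (helper174): the cut-off functions

`S` a symmetric set with `1 ∈ S`, `R ≥ 1` an integer. `wl S g` is the word length; off the
subgroup generated by `S` it is replaced by `R` in `len`. `aa R g = max 0 (1 - 2 |g| / R)`,
`th R g = (π / 2) clamp (2 |g| / R - 1)` (`0` and `π / 2` off the subgroup).
-/

open Pointwise

noncomputable section

namespace Vale.Agent.P184.H174

variable {G : Type*} [Group G] (S : Set G)

/-- `g` is a product of elements of `S` -/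
def Gen (g : G) : Prop := ∃ n : ℕ, g ∈ S ^ n

/-- the word length -/
def wl (g : G) : ℕ := sInf {n : ℕ | g ∈ S ^ n}

variable {S}

theorem mem_pow_wl {g : G} (h : Gen S g) : g ∈ S ^ wl S g := Nat.sInf_mem h

theorem wl_le {g : G} {n : ℕ} (h : g ∈ S ^ n) : wl S g ≤ n := Nat.sInf_le h

theorem Gen.one : Gen S (1 : G) := ⟨0, by rw [pow_zero]; exact Set.mem_one.2 rfl⟩

theorem wl_one : wl S (1 : G) = 0 :=
  Nat.le_zero.1 (wl_le (by rw [pow_zero]; exact Set.mem_one.2 rfl))

theorem Gen.mul {g h : G} (hg : Gen S g) (hh : Gen S h) : Gen S (g * h) := by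
  obtain ⟨m, hm⟩ := hg
  obtain ⟨n, hn⟩ := hh
  exact ⟨m + n, by rw [pow_add]; exact Set.mul_mem_mul hm hn⟩

theorem wl_mul_le {g h : G} (hg : Gen S g) (hh : Gen S h) :
    wl S (g * h) ≤ wl S g + wl S h :=
  wl_le (by rw [pow_add]; exact Set.mul_mem_mul (mem_pow_wl hg) (mem_pow_wl hh))

theorem pow_subset (h1 : (1 : G) ∈ S) {m n : ℕ} (h : m ≤ n) : S ^ m ⊆ S ^ n :=
  Set.pow_subset_pow_right h1 h

variable (hS : ∀ s ∈ S, s⁻¹ ∈ S)

include hS in
theorem inv_mem_pow {g : G} {n : ℕ} (h : g ∈ S ^ n) : g⁻¹ ∈ S ^ n := by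
  have h1 : S⁻¹ = S := by
    ext s
    rw [Set.mem_inv]
    exact ⟨fun h => by simpa using hS _ h, fun h => hS _ h⟩
  have h2 : (S ^ n)⁻¹ = S ^ n := by rw [← inv_pow, h1]
  rw [← h2, Set.mem_inv, inv_inv]
  exact h

include hS in
theorem Gen.inv {g : G} (hg : Gen S g) : Gen S g⁻¹ := by
  obtain ⟨m, hm⟩ := hg
  exact ⟨m, inv_mem_pow hS hm⟩

include hS in
theorem gen_inv_iff {g : G} : Gen S g⁻¹ ↔ Gen S g :=
  ⟨fun h => by simpa using h.inv hS, fun h => h.inv hS⟩

include hS in
theorem wl_inv (g : G) : wl S g⁻¹ = wl S g := by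
  by_cases h : Gen S g
  · refine le_antisymm (wl_le (inv_mem_pow hS (mem_pow_wl h))) ?_
    have h1 := wl_le (inv_mem_pow hS (mem_pow_wl (h.inv hS)))
    rwa [inv_inv] at h1
  · have h2 : ¬ Gen S g⁻¹ := fun h' => h ((gen_inv_iff hS).1 h')
    have h3 : {n : ℕ | g ∈ S ^ n} = ∅ := by
      ext n
      exact ⟨fun hn => (h ⟨n, hn⟩).elim, fun hn => hn.elim⟩
    have h4 : {n : ℕ | g⁻¹ ∈ S ^ n} = ∅ := by
      ext n
      exact ⟨fun hn => (h2 ⟨n, hn⟩).elim, fun hn => hn.elim⟩
    rw [wl, wl, h3, h4]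

include hS in
theorem gen_mul_right {g h : G} (hh : Gen S h) : Gen S (g * h) ↔ Gen S g :=
  ⟨fun h' => by simpa using h'.mul (hh.inv hS), fun h' => h'.mul hh⟩

include hS in
theorem gen_mul_left {g h : G} (hh : Gen S h) : Gen S (h * g) ↔ Gen S g :=
  ⟨fun h' => by simpa using (hh.inv hS).mul h', fun h' => hh.mul h'⟩

include hS in
theorem abs_wl_mul_right {g h : G} (hg : Gen S g) (hh : Gen S h) :
    |(wl S (g * h) : ℝ) - wl S g| ≤ wl S h := by
  have h1 := wl_mul_le hg hh
  have h2 := wl_mul_le (hg.mul hh) (hh.inv hS)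
  rw [mul_inv_cancel_right, wl_inv hS] at h2
  have h3 : (wl S (g * h) : ℝ) ≤ wl S g + wl S h := by exact_mod_cast h1
  have h4 : (wl S g : ℝ) ≤ wl S (g * h) + wl S h := by exact_mod_cast h2
  rw [abs_le]
  constructor <;> linarith

include hS in
theorem abs_wl_conj {g h : G} (hg : Gen S g) (hh : Gen S h) :
    |(wl S (h⁻¹ * g * h) : ℝ) - wl S g| ≤ 2 * wl S h := by
  have h1 := abs_wl_mul_right hS ((hh.inv hS).mul hg) hh
  have h2 := abs_wl_mul_right hS (hg.inv hS) hh
  have h3 : (g⁻¹ * h) = (h⁻¹ * g)⁻¹ := by group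
  rw [h3, wl_inv hS, wl_inv hS] at h2
  calc |(wl S (h⁻¹ * g * h) : ℝ) - wl S g| = |((wl S (h⁻¹ * g * h) : ℝ) - wl S (h⁻¹ * g)) +
        ((wl S (h⁻¹ * g) : ℝ) - wl S g)| := by ring_nf
    _ ≤ _ := abs_add_le _ _
    _ ≤ wl S h + wl S h := add_le_add h1 h2
    _ = _ := by ring

variable (S) (R : ℕ)

open Classical in
/-- the length, `R` off the subgroup -/
def len (g : G) : ℝ := if Gen S g then (wl S g : ℝ) else R

open Classical in
/-- the tent function -/
def aa (g : G) : ℝ := if Gen S g then max 0 (1 - 2 * (wl S g : ℝ) / R) else 0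

open Classical in
/-- the angle -/
def th (g : G) : ℝ :=
  if Gen S g then Real.pi / 2 * min 1 (max 0 (2 * (wl S g : ℝ) / R - 1)) else Real.pi / 2

variable {S R}

theorem len_nonneg (g : G) : 0 ≤ len S R g := by
  unfold len
  split_ifs <;> positivity

theorem len_of_gen {g : G} (h : Gen S g) : len S R g = wl S g := if_pos h

theorem len_of_not {g : G} (h : ¬ Gen S g) : len S R g = R := if_neg h

include hS in
theorem len_inv (g : G) : len S R g⁻¹ = len S R g := by
  unfold len
  rw [gen_inv_iff hS, wl_inv hS]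

include hS in
theorem aa_inv (g : G) : aa S R g⁻¹ = aa S R g := by
  unfold aa
  rw [gen_inv_iff hS, wl_inv hS]

theorem aa_one : aa S R (1 : G) = 1 := by
  unfold aa
  rw [if_pos Gen.one, wl_one]
  simp

theorem aa_nonneg (g : G) : 0 ≤ aa S R g := by
  unfold aa
  split_ifs
  · exact le_max_left _ _
  · exact le_rfl

theorem aa_le_one (g : G) : aa S R g ≤ 1 := by
  unfold aa
  split_ifs
  · refine max_le zero_le_one ?_
    have : 0 ≤ 2 * (wl S g : ℝ) / R := by positivity
    linarith
  · exact zero_le_one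

theorem th_nonneg (g : G) : 0 ≤ th S R g := by
  unfold th
  have hpi := Real.pi_pos
  split_ifs
  · have : 0 ≤ min 1 (max 0 (2 * (wl S g : ℝ) / R - 1)) :=
      le_min zero_le_one (le_max_left _ _)
    positivity
  · positivity

theorem th_le (g : G) : th S R g ≤ Real.pi / 2 := by
  unfold th
  have hpi := Real.pi_pos
  split_ifs
  · have : min 1 (max 0 (2 * (wl S g : ℝ) / R - 1)) ≤ 1 := min_le_left _ _
    nlinarith
  · exact le_rfl

variable (hR : 1 ≤ R)

include hR in
theorem R_pos : (0 : ℝ) < R := by exact_mod_cast hR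

include hR in
theorem aux_div (a b c : ℝ) (h : |a - b| ≤ c) : |2 * a / R - 2 * b / R| ≤ 2 / R * c := by
  have hR0 := R_pos hR
  have h1 : 2 * a / (R : ℝ) - 2 * b / R = 2 / R * (a - b) := by ring
  rw [h1, abs_mul, abs_of_pos (by positivity)]
  exact mul_le_mul_of_nonneg_left h (by positivity)

include hS hR in
/-- `aa` is Lipschitz -/
theorem aa_lip (g h : G) : |aa S R (g * h) - aa S R g| ≤ 2 / R * len S R h := by
  have hR0 := R_pos hR
  by_cases hh : Gen S h
  · rw [len_of_gen hh]
    by_cases hg : Gen S g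
    · have h1 := abs_wl_mul_right hS hg hh
      have h2 := aux_div hR _ _ _ h1
      unfold aa
      rw [if_pos (hg.mul hh), if_pos hg, max_comm 0, max_comm 0]
      refine (abs_max_sub_max_le_abs (1 - 2 * (wl S (g * h) : ℝ) / R)
        (1 - 2 * (wl S g : ℝ) / R) 0).trans ?_
      have h3 : (1 - 2 * (wl S (g * h) : ℝ) / R) - (1 - 2 * (wl S g : ℝ) / R) =
          -(2 * (wl S (g * h) : ℝ) / R - 2 * (wl S g : ℝ) / R) := by ring
      rw [h3, abs_neg]
      exact h2
    · have h1 : ¬ Gen S (g * h) := fun h' => hg ((gen_mul_right hS hh).1 h')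
      unfold aa
      rw [if_neg h1, if_neg hg, sub_self, abs_zero]
      positivity
  · rw [len_of_not hh]
    have h1 := aa_nonneg (S := S) (R := R) (g * h)
    have h2 := aa_le_one (S := S) (R := R) (g * h)
    have h3 := aa_nonneg (S := S) (R := R) g
    have h4 := aa_le_one (S := S) (R := R) g
    have h5 : (2 : ℝ) / R * R = 2 := by field_simp
    rw [h5, abs_le]
    constructor <;> linarith

include hS hR in
theorem aa_lip_left (g h : G) : |aa S R (h * g) - aa S R g| ≤ 2 / R * len S R h := by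
  have h1 := aa_lip hS hR g⁻¹ h⁻¹
  have h2 : g⁻¹ * h⁻¹ = (h * g)⁻¹ := by group
  rwa [h2, aa_inv hS, aa_inv hS, len_inv hS] at h1

include hS hR in
/-- the angle is Lipschitz for conjugation -/
theorem th_lip (g h : G) : |th S R (h⁻¹ * g * h) - th S R g| ≤ 2 * Real.pi / R * len S R h := by
  have hR0 := R_pos hR
  have hpi := Real.pi_pos
  by_cases hh : Gen S h
  · rw [len_of_gen hh]
    have hiff : Gen S (h⁻¹ * g * h) ↔ Gen S g := by
      rw [gen_mul_right hS hh, gen_mul_left hS (hh.inv hS)]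
    by_cases hg : Gen S g
    · have h1 := abs_wl_conj hS hg hh
      have h2 := aux_div hR _ _ _ h1
      unfold th
      rw [if_pos (hiff.2 hg), if_pos hg, ← mul_sub, abs_mul, abs_of_pos (by positivity)]
      have h3 : |min 1 (max 0 (2 * (wl S (h⁻¹ * g * h) : ℝ) / R - 1)) -
          min 1 (max 0 (2 * (wl S g : ℝ) / R - 1))| ≤
          |2 * (wl S (h⁻¹ * g * h) : ℝ) / R - 2 * (wl S g : ℝ) / R| := by
        rw [min_comm 1, min_comm 1]
        refine (abs_min_sub_min_le_max _ _ _ _).trans ?_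
        rw [sub_self, abs_zero, max_eq_left (abs_nonneg _), max_comm 0, max_comm 0]
        refine (abs_max_sub_max_le_abs _ _ _).trans ?_
        apply le_of_eq
        congr 1
        ring
      calc Real.pi / 2 * |min 1 (max 0 (2 * (wl S (h⁻¹ * g * h) : ℝ) / R - 1)) -
          min 1 (max 0 (2 * (wl S g : ℝ) / R - 1))|
          ≤ Real.pi / 2 * (2 / R * (2 * wl S h)) :=
            mul_le_mul_of_nonneg_left (h3.trans h2) (by positivity)
        _ = 2 * Real.pi / R * wl S h := by ring
    · have h1 : ¬ Gen S (h⁻¹ * g * h) := fun h' => hg (hiff.1 h')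
      unfold th
      rw [if_neg h1, if_neg hg, sub_self, abs_zero]
      positivity
  · rw [len_of_not hh]
    have h1 := th_nonneg (S := S) (R := R) (h⁻¹ * g * h)
    have h2 := th_le (S := S) (R := R) (h⁻¹ * g * h)
    have h3 := th_nonneg (S := S) (R := R) g
    have h4 := th_le (S := S) (R := R) g
    have h5 : 2 * Real.pi / R * R = 2 * Real.pi := by field_simp
    rw [h5, abs_le]
    constructor <;> linarith

include hR in
/-- the tent vanishes where the angle is positive -/
theorem aa_eq_zero {g : G} (h : Real.sin (th S R g) ≠ 0) : aa S R g = 0 := by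
  have hR0 := R_pos hR
  unfold aa
  split_ifs with hg
  · by_contra hne
    apply h
    have h1 : 0 < 1 - 2 * (wl S g : ℝ) / R := by
      by_contra h2
      exact hne (max_eq_left (not_lt.1 h2))
    unfold th
    rw [if_pos hg, max_eq_left (by linarith), min_eq_right zero_le_one, mul_zero, Real.sin_zero]
  · rfl

include hR in
/-- the core -/
theorem mem_pow_of_cos_ne {g : G} (h1 : (1 : G) ∈ S) (h : Real.cos (th S R g) ≠ 0) :
    g ∈ S ^ R := by
  have hR0 := R_pos hR
  by_cases hg : Gen S g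
  · by_contra hne
    have h2 : R < wl S g := by
      by_contra h3
      exact hne (pow_subset h1 (not_lt.1 h3) (mem_pow_wl hg))
    apply h
    have h3 : (R : ℝ) < wl S g := by exact_mod_cast h2
    have h4 : 1 ≤ 2 * (wl S g : ℝ) / R - 1 := by
      rw [le_sub_iff_add_le, le_div_iff₀ hR0]
      linarith
    unfold th
    rw [if_pos hg, max_eq_right (by linarith), min_eq_left h4, mul_one, Real.cos_pi_div_two]
  · exfalso
    apply h
    unfold th
    rw [if_neg hg, Real.cos_pi_div_two]

end Vale.Agent.P184.H174
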