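import Vale.Agent.P184.H38.Wick2
import Vale.Agent.P184.H174.Fld

/-!
# P184 (helper174): the field of vectors

`x ∈ G`, `R ≥ 1`, `ψ` a real character of the centralizer of `x` with `ψ x = 1`, `κ` a potential
of it on the core `{p | p⁻¹ x p ∈ S ^ R}`. The vectors
`v p = (cos (θ p) exp (i φ κ p), sin (θ p) p)`, `θ p = th (p⁻¹ x p)`, in `ℂ × (G →₀ ℝ)`.
-/

open Pointwise Vale.Agent.P184.H38

noncomputable section

namespace Vale.Agent.P184.H174

variable {G : Type*} [Group G] (S : Set G) (R : ℕ) (x : G) (φ : ℝ) (κ : G → ℝ)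

/-- the two dimensional part -/
def uu (p : G) : ℂ :=
  (Real.cos (th S R (p⁻¹ * x * p)) : ℂ) * Complex.exp ((φ * κ p : ℝ) * Complex.I)

/-- the other part -/
def ww (p : G) : G →₀ ℝ := Finsupp.single p (Real.sin (th S R (p⁻¹ * x * p)))

/-- the kernel of the other part -/
def kA (p q : G) : ℝ := aa S R (p⁻¹ * q) - aa S R (q⁻¹ * x * p)

/-- the field of vectors -/
def vv (p : G) : ℂ × (G →₀ ℝ) := (uu S R x φ κ p, ww S R x p)

/-- the bilinear form -/
def BB : LinearMap.BilinForm ℝ (ℂ × (G →₀ ℝ)) := dS (Sth φ) (frS (kA S R x))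

theorem frS_sgl {V : Type*} (k : V → V → ℝ) (a b : V) (r t : ℝ) :
    frS k (Finsupp.single a r) (Finsupp.single b t) = r * t * k a b := by
  have h1 : Finsupp.single a r = r • Finsupp.single a (1 : ℝ) := by
    rw [Finsupp.smul_single, smul_eq_mul, mul_one]
  have h2 : Finsupp.single b t = t • Finsupp.single b (1 : ℝ) := by
    rw [Finsupp.smul_single, smul_eq_mul, mul_one]
  rw [h1, h2, map_smul, map_smul, LinearMap.smul_apply, frS_single, smul_eq_mul, smul_eq_mul]
  ring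

theorem frS_ww (p q : G) : frS (kA S R x) (ww S R x p) (ww S R x q) =
    Real.sin (th S R (p⁻¹ * x * p)) * Real.sin (th S R (q⁻¹ * x * q)) * kA S R x p q :=
  frS_sgl _ _ _ _ _

theorem BB_apply (p q : G) : BB S R x φ (vv S R x φ κ p) (vv S R x φ κ q) =
    Sth φ (uu S R x φ κ p) (uu S R x φ κ q) +
      Real.sin (th S R (p⁻¹ * x * p)) * Real.sin (th S R (q⁻¹ * x * q)) * kA S R x p q := by
  rw [BB, dS_apply, vv, vv, frS_ww]

variable {S R x φ κ}

theorem conj_mul_left {c : G} (hc : Commute c x) (p : G) :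
    (c * p)⁻¹ * x * (c * p) = p⁻¹ * x * p := by
  have h1 : c⁻¹ * x * c = x := by
    rw [mul_assoc, ← hc.eq, inv_mul_cancel_left]
  calc (c * p)⁻¹ * x * (c * p) = p⁻¹ * (c⁻¹ * x * c) * p := by group
    _ = _ := by rw [h1]

theorem kA_cyc (p q : G) : kA S R x q (x * p) = -kA S R x p q := by
  unfold kA
  have h1 : (x * p)⁻¹ * x * q = p⁻¹ * q := by group
  rw [h1, ← mul_assoc]
  ring

theorem kA_inv {c : G} (hc : Commute c x) (p q : G) :
    kA S R x (c * p) (c * q) = kA S R x p q := by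
  unfold kA
  have h1 : (c * p)⁻¹ * (c * q) = p⁻¹ * q := by group
  have h2 : (c * q)⁻¹ * x * (c * p) = q⁻¹ * x * p := by
    have h3 : c⁻¹ * x * c = x := by
      rw [mul_assoc, ← hc.eq, inv_mul_cancel_left]
    calc (c * q)⁻¹ * x * (c * p) = q⁻¹ * (c⁻¹ * x * c) * p := by group
      _ = _ := by rw [h3]
  rw [h1, h2]

theorem abs_kA_le (p q : G) : |kA S R x p q| ≤ 1 := by
  unfold kA
  have h1 := aa_nonneg (S := S) (R := R) (p⁻¹ * q)
  have h2 := aa_le_one (S := S) (R := R) (p⁻¹ * q)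
  have h3 := aa_nonneg (S := S) (R := R) (q⁻¹ * x * p)
  have h4 := aa_le_one (S := S) (R := R) (q⁻¹ * x * p)
  rw [abs_le]
  constructor <;> linarith

theorem cos_th_nonneg (g : G) : 0 ≤ Real.cos (th S R g) := by
  refine Real.cos_nonneg_of_neg_pi_div_two_le_of_le ?_ (th_le g)
  have h1 := th_nonneg (S := S) (R := R) g
  have h2 := Real.pi_pos
  linarith

theorem norm_uu (p : G) : ‖uu S R x φ κ p‖ = Real.cos (th S R (p⁻¹ * x * p)) := by
  rw [uu, norm_mul, Complex.norm_exp_ofReal_mul_I, mul_one, Complex.norm_real, Real.norm_eq_abs,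
    abs_of_nonneg (cos_th_nonneg _)]

theorem norm_uu_le (p : G) : ‖uu S R x φ κ p‖ ≤ 1 := by
  rw [norm_uu]
  exact Real.cos_le_one _

theorem abs_sin_th_le (g : G) : |Real.sin (th S R g)| ≤ 1 := Real.abs_sin_le_one _

section

variable (h1 : (1 : G) ∈ S) (hR : 1 ≤ R)

include h1 hR in
theorem uu_eq_zero {p : G} (hp : p ∉ core x (S ^ R)) : uu S R x φ κ p = 0 := by
  have h : Real.cos (th S R (p⁻¹ * x * p)) = 0 := by
    by_contra hne
    exact hp (mem_pow_of_cos_ne hR h1 hne)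
  rw [uu, h, Complex.ofReal_zero, zero_mul]

variable {ψ : G → ℝ} (hκ : ∀ c p, Commute c x → p ∈ core x (S ^ R) → κ (c * p) = ψ c + κ p)

include h1 hR hκ in
/-- the two dimensional part is equivariant -/
theorem uu_mul {c : G} (hc : Commute c x) (p : G) :
    uu S R x φ κ (c * p) = Complex.exp ((φ * ψ c : ℝ) * Complex.I) * uu S R x φ κ p := by
  by_cases hp : p ∈ core x (S ^ R)
  · rw [uu, uu, conj_mul_left hc, hκ c p hc hp, mul_add, Complex.ofReal_add, add_mul,
      Complex.exp_add]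
    ring
  · rw [uu_eq_zero h1 hR hp, uu_eq_zero h1 hR (fun h => hp ((conj_mem_core hc).1 h)), mul_zero]

include hR in
/-- (V3) -/
theorem BB_self (p : G) : BB S R x φ (vv S R x φ κ p) (vv S R x φ κ p) = 1 := by
  rw [BB_apply, Sth_self, norm_uu]
  have h2 : Real.sin (th S R (p⁻¹ * x * p)) * Real.sin (th S R (p⁻¹ * x * p)) * kA S R x p p =
      Real.sin (th S R (p⁻¹ * x * p)) ^ 2 := by
    by_cases h : Real.sin (th S R (p⁻¹ * x * p)) = 0
    · rw [h]
      ring
    · rw [kA, inv_mul_cancel, aa_one, aa_eq_zero hR h]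
      ring
  rw [h2, Real.cos_sq_add_sin_sq]

include h1 hR hκ in
/-- (V1), (V2) -/
theorem BB_cyc (hφ : Real.sin (φ / 2) ≠ 0) (hx : ψ x = 1) (p q : G) :
    BB S R x φ (vv S R x φ κ q) (vv S R x φ κ (x * p)) =
      -BB S R x φ (vv S R x φ κ p) (vv S R x φ κ q) := by
  rw [BB_apply, BB_apply, uu_mul h1 hR hκ (Commute.refl x) p, hx, mul_one, Sth_cyc φ hφ,
    kA_cyc, conj_mul_left (Commute.refl x)]
  ring

theorem Sth_rot (t : ℝ) (a b : ℂ) :
    Sth φ (Complex.exp (t * Complex.I) * a) (Complex.exp (t * Complex.I) * b) = Sth φ a b := by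
  rw [Sth_apply, Sth_apply]
  have h2 : Complex.exp (t * Complex.I) * a *
      (starRingEnd ℂ) (Complex.exp (t * Complex.I) * b) = a * (starRingEnd ℂ) b := by
    rw [map_mul, ← Complex.exp_conj, map_mul, Complex.conj_ofReal, Complex.conj_I]
    have h3 : Complex.exp (t * Complex.I) * Complex.exp (t * -Complex.I) = 1 := by
      rw [← Complex.exp_add, mul_neg, add_neg_cancel, Complex.exp_zero]
    calc Complex.exp (t * Complex.I) * a * (Complex.exp (t * -Complex.I) * (starRingEnd ℂ) b) =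
        Complex.exp (t * Complex.I) * Complex.exp (t * -Complex.I) * (a * (starRingEnd ℂ) b) := by
          ring
      _ = _ := by rw [h3, one_mul]
  rw [h2]

include h1 hR hκ in
/-- (V4) -/
theorem BB_inv {c : G} (hc : Commute c x) (p q : G) :
    BB S R x φ (vv S R x φ κ (c * p)) (vv S R x φ κ (c * q)) =
      BB S R x φ (vv S R x φ κ p) (vv S R x φ κ q) := by
  rw [BB_apply, BB_apply, uu_mul h1 hR hκ hc p, uu_mul h1 hR hκ hc q, Sth_rot, kA_inv hc,
    conj_mul_left hc, conj_mul_left hc]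

theorem abs_Sth_le (a b : ℂ) :
    |Sth φ a b| ≤ (1 + |Real.cos (φ / 2) / Real.sin (φ / 2)|) * (‖a‖ * ‖b‖) := by
  rw [Sth_apply]
  have h2 : ‖a * (starRingEnd ℂ) b‖ = ‖a‖ * ‖b‖ := by
    rw [norm_mul, RCLike.norm_conj]
  have h3 := Complex.abs_re_le_norm (a * (starRingEnd ℂ) b)
  have h4 := Complex.abs_im_le_norm (a * (starRingEnd ℂ) b)
  rw [h2] at h3 h4
  calc |(a * (starRingEnd ℂ) b).re + Real.cos (φ / 2) / Real.sin (φ / 2) *
        (a * (starRingEnd ℂ) b).im| ≤ |(a * (starRingEnd ℂ) b).re| +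
        |Real.cos (φ / 2) / Real.sin (φ / 2) * (a * (starRingEnd ℂ) b).im| := abs_add_le _ _
    _ = |(a * (starRingEnd ℂ) b).re| +
        |Real.cos (φ / 2) / Real.sin (φ / 2)| * |(a * (starRingEnd ℂ) b).im| := by rw [abs_mul]
    _ ≤ ‖a‖ * ‖b‖ + |Real.cos (φ / 2) / Real.sin (φ / 2)| * (‖a‖ * ‖b‖) := by gcongr
    _ = _ := by ring

/-- the form is bounded on the field -/
theorem abs_BB_le (p q : G) : |BB S R x φ (vv S R x φ κ p) (vv S R x φ κ q)| ≤
    2 + |Real.cos (φ / 2) / Real.sin (φ / 2)| := by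
  rw [BB_apply]
  have h2 := abs_Sth_le (φ := φ) (uu S R x φ κ p) (uu S R x φ κ q)
  have h3 : ‖uu S R x φ κ p‖ * ‖uu S R x φ κ q‖ ≤ 1 :=
    mul_le_one₀ (norm_uu_le p) (norm_nonneg _) (norm_uu_le q)
  have h4 : |Real.sin (th S R (p⁻¹ * x * p)) * Real.sin (th S R (q⁻¹ * x * q)) *
      kA S R x p q| ≤ 1 := by
    rw [abs_mul, abs_mul]
    exact mul_le_one₀ (mul_le_one₀ (abs_sin_th_le _) (abs_nonneg _) (abs_sin_th_le _))
      (abs_nonneg _) (abs_kA_le p q)
  have h5 : (1 + |Real.cos (φ / 2) / Real.sin (φ / 2)|) *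
      (‖uu S R x φ κ p‖ * ‖uu S R x φ κ q‖) ≤ 1 + |Real.cos (φ / 2) / Real.sin (φ / 2)| := by
    have h6 : 0 ≤ 1 + |Real.cos (φ / 2) / Real.sin (φ / 2)| := by positivity
    nlinarith
  refine (abs_add_le _ _).trans ?_
  linarith

end

/-! ### Estimates -/

section

variable (h1 : (1 : G) ∈ S) (hS : ∀ s ∈ S, s⁻¹ ∈ S) (hR : 1 ≤ R)

theorem len_le_of_mem {g : G} {n : ℕ} (h : g ∈ S ^ n) : len S R g ≤ n := by
  rw [len_of_gen ⟨n, h⟩]
  exact_mod_cast wl_le h

include hR in
theorem one_le_len {g : G} (hg : g ≠ 1) : 1 ≤ len S R g := by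
  by_cases h : Gen S g
  · rw [len_of_gen h]
    have h2 : wl S g ≠ 0 := by
      intro h0
      have h3 := mem_pow_wl h
      rw [h0, pow_zero] at h3
      exact hg (Set.mem_one.1 h3)
    exact_mod_cast Nat.one_le_iff_ne_zero.2 h2
  · rw [len_of_not h]
    exact_mod_cast hR

include hS hR in
theorem cos_th_lip (g h : G) : |Real.cos (th S R (h⁻¹ * g * h)) - Real.cos (th S R g)| ≤
    2 * Real.pi / R * len S R h :=
  (Real.abs_cos_sub_cos_le _ _).trans (th_lip hS hR g h)

include hS hR in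
theorem sin_th_lip (g h : G) : |Real.sin (th S R (h⁻¹ * g * h)) - Real.sin (th S R g)| ≤
    2 * Real.pi / R * len S R h :=
  (Real.abs_sin_sub_sin_le _ _).trans (th_lip hS hR g h)

theorem conj_mul_right (p h : G) : (p * h)⁻¹ * x * (p * h) = h⁻¹ * (p⁻¹ * x * p) * h := by group

theorem norm_exp_sub_le (a b : ℝ) :
    ‖Complex.exp (a * Complex.I) - Complex.exp (b * Complex.I)‖ ≤ |a - b| := by
  have h2 : Complex.exp (a * Complex.I) - Complex.exp (b * Complex.I) =
      Complex.exp (b * Complex.I) * (Complex.exp (Complex.I * ((a - b : ℝ) : ℂ)) - 1) := by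
    rw [mul_sub, ← Complex.exp_add, mul_one]
    congr 2
    push_cast
    ring
  rw [h2, norm_mul, Complex.norm_exp_ofReal_mul_I, one_mul]
  exact Real.norm_exp_I_mul_ofReal_sub_one_le

variable {Λ : ℝ} (hΛ : ∀ p ∈ core x (S ^ R), ∀ s ∈ S, p * s ∈ core x (S ^ R) →
  |κ (p * s) - κ p| ≤ Λ) (hφ0 : 0 ≤ φ) (hφ : φ * Λ * R ≤ 1)

include h1 hS hR hΛ hφ0 hφ in
theorem uu_step (p : G) {s : G} (hs : s ∈ S) :
    ‖uu S R x φ κ (p * s) - uu S R x φ κ p‖ ≤ 8 / R := by
  have hR0 := R_pos hR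
  have hls : len S R s ≤ 1 := by
    have := len_le_of_mem (R := R) (S := S) (g := s) (n := 1) (by rwa [pow_one])
    simpa using this
  have hc := cos_th_lip hS hR (p⁻¹ * x * p) s
  rw [← conj_mul_right] at hc
  have hc2 : |Real.cos (th S R ((p * s)⁻¹ * x * (p * s))) - Real.cos (th S R (p⁻¹ * x * p))| ≤
      2 * Real.pi / R := by
    refine hc.trans ?_
    have : 0 ≤ 2 * Real.pi / R := by positivity
    nlinarith
  have hpi : 2 * Real.pi / R ≤ 7 / R := by
    have := Real.pi_lt_d2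
    gcongr
    linarith
  by_cases hp : p ∈ core x (S ^ R)
  · by_cases hps : p * s ∈ core x (S ^ R)
    · have h2 := hΛ p hp s hs hps
      have h3 : uu S R x φ κ (p * s) - uu S R x φ κ p =
          ((Real.cos (th S R ((p * s)⁻¹ * x * (p * s))) - Real.cos (th S R (p⁻¹ * x * p)) : ℝ)
            : ℂ) * Complex.exp ((φ * κ (p * s) : ℝ) * Complex.I) +
          (Real.cos (th S R (p⁻¹ * x * p)) : ℂ) *
            (Complex.exp ((φ * κ (p * s) : ℝ) * Complex.I) -
              Complex.exp ((φ * κ p : ℝ) * Complex.I)) := by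
        rw [uu, uu, Complex.ofReal_sub]
        ring
      have h4 : ‖(Real.cos (th S R (p⁻¹ * x * p)) : ℂ)‖ ≤ 1 := by
        rw [Complex.norm_real, Real.norm_eq_abs]
        exact Real.abs_cos_le_one _
      have h5 := norm_exp_sub_le (φ * κ (p * s)) (φ * κ p)
      have h6 : |φ * κ (p * s) - φ * κ p| ≤ 1 / R := by
        rw [← mul_sub, abs_mul, abs_of_nonneg hφ0, le_div_iff₀ hR0]
        calc φ * |κ (p * s) - κ p| * R ≤ φ * Λ * R := by gcongr
          _ ≤ 1 := hφ
      rw [h3]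
      refine (norm_add_le _ _).trans ?_
      rw [norm_mul, norm_mul, Complex.norm_exp_ofReal_mul_I, mul_one, Complex.norm_real,
        Real.norm_eq_abs]
      calc _ ≤ 7 / (R : ℝ) + 1 * (1 / R) :=
            add_le_add (hc2.trans hpi) (mul_le_mul h4 (h5.trans h6) (norm_nonneg _) zero_le_one)
        _ = 8 / R := by ring
    · have h2 : Real.cos (th S R ((p * s)⁻¹ * x * (p * s))) = 0 := by
        by_contra hne
        exact hps (mem_pow_of_cos_ne hR h1 hne)
      rw [uu_eq_zero h1 hR hps, zero_sub, norm_neg, norm_uu]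
      rw [h2, zero_sub, abs_neg] at hc2
      refine ((le_abs_self _).trans (hc2.trans hpi)).trans ?_
      gcongr
      norm_num
  · have h2 : Real.cos (th S R (p⁻¹ * x * p)) = 0 := by
      by_contra hne
      exact hp (mem_pow_of_cos_ne hR h1 hne)
    rw [uu_eq_zero h1 hR hp, sub_zero, norm_uu]
    rw [h2, sub_zero] at hc2
    refine ((le_abs_self _).trans (hc2.trans hpi)).trans ?_
    gcongr
    norm_num

include h1 hS hR hΛ hφ0 hφ in
/-- (EST i) -/
theorem uL (p h : G) : ‖uu S R x φ κ (p * h) - uu S R x φ κ p‖ ≤ 8 / R * len S R h := by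
  have hR0 := R_pos hR
  by_cases hh : Gen S h
  · rw [len_of_gen hh]
    have key : ∀ (n : ℕ) (h : G), h ∈ S ^ n →
        ‖uu S R x φ κ (p * h) - uu S R x φ κ p‖ ≤ 8 / R * n := by
      intro n
      induction n with
      | zero =>
        intro h hh
        rw [pow_zero] at hh
        rw [Set.mem_one.1 hh, mul_one, sub_self, norm_zero]
        simp
      | succ n ih =>
        intro h hh
        rw [pow_succ] at hh
        obtain ⟨a, ha, s, hs, rfl⟩ := Set.mem_mul.1 hh
        have h2 := ih a ha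
        have h3 := uu_step h1 hS hR hΛ hφ0 hφ (p * a) hs
        rw [mul_assoc] at h3
        calc ‖uu S R x φ κ (p * (a * s)) - uu S R x φ κ p‖ ≤
            ‖uu S R x φ κ (p * (a * s)) - uu S R x φ κ (p * a)‖ +
            ‖uu S R x φ κ (p * a) - uu S R x φ κ p‖ := norm_sub_le_norm_sub_add_norm_sub _ _ _
          _ ≤ 8 / R + 8 / R * n := add_le_add h3 h2
          _ = 8 / R * ((n + 1 : ℕ) : ℝ) := by
            push_cast
            ring
    exact key _ h (mem_pow_wl hh)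
  · rw [len_of_not hh]
    have h2 := norm_uu_le (S := S) (R := R) (x := x) (φ := φ) (κ := κ) (p * h)
    have h3 := norm_uu_le (S := S) (R := R) (x := x) (φ := φ) (κ := κ) p
    have h4 : (8 : ℝ) / R * R = 8 := by field_simp
    rw [h4]
    refine (norm_sub_le _ _).trans ?_
    linarith

include hS hR in
theorem kA_left (p h q : G) : |kA S R x (p * h) q - kA S R x p q| ≤ 4 / R * len S R h := by
  unfold kA
  have h2 := aa_lip_left hS hR (p⁻¹ * q) h⁻¹
  have h3 := aa_lip hS hR (q⁻¹ * x * p) h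
  rw [len_inv hS] at h2
  have h4 : h⁻¹ * (p⁻¹ * q) = (p * h)⁻¹ * q := by group
  have h5 : q⁻¹ * x * p * h = q⁻¹ * x * (p * h) := by group
  rw [h4] at h2
  rw [h5] at h3
  have h6 : aa S R ((p * h)⁻¹ * q) - aa S R (q⁻¹ * x * (p * h)) -
      (aa S R (p⁻¹ * q) - aa S R (q⁻¹ * x * p)) =
      (aa S R ((p * h)⁻¹ * q) - aa S R (p⁻¹ * q)) -
      (aa S R (q⁻¹ * x * (p * h)) - aa S R (q⁻¹ * x * p)) := by ring
  rw [h6]
  refine (abs_sub _ _).trans ?_
  calc _ ≤ 2 / R * len S R h + 2 / R * len S R h := add_le_add h2 h3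
    _ = _ := by ring

include hS hR in
theorem kA_right (p q g : G) : |kA S R x p (q * g) - kA S R x p q| ≤ 4 / R * len S R g := by
  unfold kA
  have h2 := aa_lip hS hR (p⁻¹ * q) g
  have h3 := aa_lip_left hS hR (q⁻¹ * x * p) g⁻¹
  rw [len_inv hS] at h3
  have h4 : p⁻¹ * q * g = p⁻¹ * (q * g) := by group
  have h5 : g⁻¹ * (q⁻¹ * x * p) = (q * g)⁻¹ * x * p := by group
  rw [h4] at h2
  rw [h5] at h3
  have h6 : aa S R (p⁻¹ * (q * g)) - aa S R ((q * g)⁻¹ * x * p) -
      (aa S R (p⁻¹ * q) - aa S R (q⁻¹ * x * p)) =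
      (aa S R (p⁻¹ * (q * g)) - aa S R (p⁻¹ * q)) -
      (aa S R ((q * g)⁻¹ * x * p) - aa S R (q⁻¹ * x * p)) := by ring
  rw [h6]
  refine (abs_sub _ _).trans ?_
  calc _ ≤ 2 / R * len S R g + 2 / R * len S R g := add_le_add h2 h3
    _ = _ := by ring

/-- the decomposition of the mixed difference -/
theorem mixed_le {α α' γ γ' k00 k01 k10 k11 a b A B C M : ℝ}
    (hα : |α| ≤ 1) (hγ : |γ| ≤ 1) (hk : |k11| ≤ 1)
    (h1 : |α' - α| ≤ A * a) (h2 : |γ' - γ| ≤ A * b)
    (h3 : |k11 - k01| ≤ B * a) (h4 : |k11 - k10| ≤ B * b)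
    (h5 : |k11 - k01 - k10 + k00| ≤ C * (a * b)) (hM : C + 2 * A * B + A * A ≤ M)
    (ha : 0 ≤ a) (hb : 0 ≤ b) (hA : 0 ≤ A) :
    |α' * γ' * k11 - α * γ' * k01 - α' * γ * k10 + α * γ * k00| ≤ M * a * b := by
  have h6 : α' * γ' * k11 - α * γ' * k01 - α' * γ * k10 + α * γ * k00 =
      α * γ * (k11 - k01 - k10 + k00) + α * (γ' - γ) * (k11 - k01) +
      (α' - α) * γ * (k11 - k10) + (α' - α) * (γ' - γ) * k11 := by ring
  have e1 : |α * γ * (k11 - k01 - k10 + k00)| ≤ C * (a * b) := by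
    rw [abs_mul, abs_mul]
    calc |α| * |γ| * |k11 - k01 - k10 + k00| ≤ 1 * 1 * |k11 - k01 - k10 + k00| := by gcongr
      _ ≤ _ := by rw [one_mul, one_mul]; exact h5
  have e2 : |α * (γ' - γ) * (k11 - k01)| ≤ A * b * (B * a) := by
    rw [abs_mul, abs_mul]
    calc |α| * |γ' - γ| * |k11 - k01| ≤ 1 * (A * b) * (B * a) := by gcongr
      _ = _ := by ring
  have e3 : |(α' - α) * γ * (k11 - k10)| ≤ A * a * (B * b) := by
    rw [abs_mul, abs_mul]
    calc |α' - α| * |γ| * |k11 - k10| ≤ A * a * 1 * (B * b) := by gcongr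
      _ = _ := by ring
  have e4 : |(α' - α) * (γ' - γ) * k11| ≤ A * a * (A * b) := by
    rw [abs_mul, abs_mul]
    calc |α' - α| * |γ' - γ| * |k11| ≤ A * a * (A * b) * 1 := by gcongr
      _ = _ := by ring
  rw [h6]
  refine (abs_add_le _ _).trans ((add_le_add ((abs_add_le _ _).trans
    (add_le_add ((abs_add_le _ _).trans (add_le_add e1 e2)) e3)) e4).trans ?_)
  calc C * (a * b) + A * b * (B * a) + A * a * (B * b) + A * a * (A * b) =
      (C + 2 * A * B + A * A) * (a * b) := by ring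
    _ ≤ M * (a * b) := mul_le_mul_of_nonneg_right hM (mul_nonneg ha hb)
    _ = _ := by ring

include hS hR in
theorem kA_mixed (p h q g : G) (hh : h ≠ 1) (hg : g ≠ 1) :
    |kA S R x (p * h) (q * g) - kA S R x p (q * g) - kA S R x (p * h) q + kA S R x p q| ≤
      8 / R * (len S R h * len S R g) := by
  have hR0 := R_pos hR
  have a1 := one_le_len (S := S) hR hh
  have a2 := one_le_len (S := S) hR hg
  have h2 := kA_left (x := x) hS hR p h (q * g)
  have h3 := kA_left (x := x) hS hR p h q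
  have h4 : kA S R x (p * h) (q * g) - kA S R x p (q * g) - kA S R x (p * h) q + kA S R x p q =
      (kA S R x (p * h) (q * g) - kA S R x p (q * g)) - (kA S R x (p * h) q - kA S R x p q) := by
    ring
  rw [h4]
  calc _ ≤ |kA S R x (p * h) (q * g) - kA S R x p (q * g)| +
        |kA S R x (p * h) q - kA S R x p q| := abs_sub _ _
    _ ≤ 4 / R * len S R h + 4 / R * len S R h := add_le_add h2 h3
    _ = 8 / R * (len S R h * 1) := by ring
    _ ≤ _ := by gcongr

include hS hR in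
/-- (EST ii) -/
theorem sL (p h q g : G) :
    |frS (kA S R x) (ww S R x (p * h) - ww S R x p) (ww S R x (q * g) - ww S R x q)| ≤
      100 / R * len S R h * len S R g := by
  have hR0 := R_pos hR
  have b1 := len_nonneg (S := S) (R := R) h
  have b2 := len_nonneg (S := S) (R := R) g
  by_cases hh : h = 1
  · rw [hh, mul_one, sub_self, map_zero, LinearMap.zero_apply, abs_zero]
    have := len_nonneg (S := S) (R := R) (1 : G)
    positivity
  by_cases hg : g = 1
  · rw [hg, mul_one, sub_self, map_zero, abs_zero]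
    have := len_nonneg (S := S) (R := R) (1 : G)
    positivity
  have h2 : frS (kA S R x) (ww S R x (p * h) - ww S R x p) (ww S R x (q * g) - ww S R x q) =
      Real.sin (th S R ((p * h)⁻¹ * x * (p * h))) * Real.sin (th S R ((q * g)⁻¹ * x * (q * g))) *
        kA S R x (p * h) (q * g) -
      Real.sin (th S R (p⁻¹ * x * p)) * Real.sin (th S R ((q * g)⁻¹ * x * (q * g))) *
        kA S R x p (q * g) -
      Real.sin (th S R ((p * h)⁻¹ * x * (p * h))) * Real.sin (th S R (q⁻¹ * x * q)) *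
        kA S R x (p * h) q +
      Real.sin (th S R (p⁻¹ * x * p)) * Real.sin (th S R (q⁻¹ * x * q)) * kA S R x p q := by
    rw [map_sub, map_sub, LinearMap.sub_apply, LinearMap.sub_apply, frS_ww, frS_ww, frS_ww,
      frS_ww]
    ring
  rw [h2]
  have s1 := sin_th_lip hS hR (p⁻¹ * x * p) h
  have s2 := sin_th_lip hS hR (q⁻¹ * x * q) g
  rw [← conj_mul_right] at s1 s2
  refine mixed_le (A := 2 * Real.pi / R) (B := 4 / R) (C := 8 / R) (abs_sin_th_le _)
    (abs_sin_th_le _) (abs_kA_le _ _) s1 s2 (kA_left hS hR p h (q * g)) ?_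
    (kA_mixed hS hR p h q g hh hg) ?_ b1 b2 (by positivity)
  · exact kA_right hS hR (p * h) q g
  · have hpi := Real.pi_lt_d2
    have hpi0 := Real.pi_pos
    have hR1 : (1 : ℝ) ≤ R := by exact_mod_cast hR
    have e : 8 / (R : ℝ) + 2 * (2 * Real.pi / R) * (4 / R) + 2 * Real.pi / R * (2 * Real.pi / R) =
        8 / R + (16 * Real.pi + 4 * Real.pi ^ 2) / R / R := by
      field_simp
      ring
    rw [e]
    have e2 : (16 * Real.pi + 4 * Real.pi ^ 2) / R / R ≤ 92 / R := by
      refine (div_le_self (by positivity) hR1).trans ?_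
      gcongr
      nlinarith
    calc 8 / (R : ℝ) + (16 * Real.pi + 4 * Real.pi ^ 2) / R / R ≤ 8 / R + 92 / R := by gcongr
      _ = 100 / R := by ring

end

end Vale.Agent.P184.H174
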