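import Vale.Agent.P184.H115.FQ
import Vale.Agent.P184.AG.Defs

/-!
# P184 (helper174): vanishing at far classes, from finite quotients and Galois conjugation
-/

namespace Vale.Agent.P184.H174

open Vale.Agent.P184.Un Vale.Agent.P184.H250 Vale.Agent.P184.H115 Real

universe u

/-- a word in the image of `S` -/
theorem exists_lift {G Q : Type*} [Group G] [Group Q] [DecidableEq Q] (S : Finset G)
    (ρ₀ : G →* Q) {m : ℕ} {z : Q} (h : IsWd (S.image ρ₀) m z) :
    ∃ l : List G, l.length = m ∧ (∀ s ∈ l, s ∈ S) ∧ ρ₀ l.prod = z := by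
  obtain ⟨l, l1, l2, l3⟩ := h
  have key : ∀ l : List Q, (∀ y ∈ l, y ∈ S.image ρ₀) →
      ∃ l' : List G, l'.length = l.length ∧ (∀ s ∈ l', s ∈ S) ∧ l'.map ρ₀ = l := by
    intro l
    induction l with
    | nil => exact fun _ => ⟨[], rfl, fun s hs => absurd hs List.not_mem_nil, rfl⟩
    | cons y l ih =>
      intro hl
      obtain ⟨l', e1, e2, e3⟩ := ih fun z hz => hl z (List.mem_cons_of_mem _ hz)
      obtain ⟨s, hs, hsy⟩ := Finset.mem_image.1 (hl y List.mem_cons_self)
      refine ⟨s :: l', by rw [List.length_cons, List.length_cons, e1], fun t ht => ?_, by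
        rw [List.map_cons, hsy, e3]⟩
      rcases List.mem_cons.1 ht with rfl | ht
      · exact hs
      · exact e2 t ht
  obtain ⟨l', e1, e2, e3⟩ := key l l2
  exact ⟨l', e1.trans l1, e2, by rw [map_list_prod, e3, l3]⟩

theorem isWd_inv {Q : Type*} [Group Q] {S : Finset Q} (hS : ∀ s ∈ S, s⁻¹ ∈ S) {m : ℕ} {z : Q}
    (h : IsWd S m z) : IsWd S m z⁻¹ := by
  obtain ⟨l, l1, l2, l3⟩ := h
  refine ⟨(l.map (·⁻¹)).reverse, by rw [List.length_reverse, List.length_map, l1],
    fun y hy => ?_, by rw [← l3, List.prod_inv_reverse]⟩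
  rw [List.mem_reverse, List.mem_map] at hy
  obtain ⟨t, ht, rfl⟩ := hy
  exact hS t (l2 t ht)

/-- **Vanishing of the trace at far classes**, for an idempotent supported on the words in `S`. -/
theorem exists_far {G : Type u} [Group G] {q : ℕ} {f : Mat G q} (hf : IsIdem f) {S : Finset G}
    (hS : ∀ s ∈ S, s⁻¹ ∈ S) (h0 : ∀ i j g, (¬ ∃ n, IsWd S n g) → f i j g = 0)
    (h1 : ∀ i j, Summable fun g => ‖f i j g‖ * (wl S g : ℝ)) :
    ∃ A : ℝ, ∀ x, GalFar S A x → tau (ConjClasses.mk x) f = 0 := by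
  classical
  obtain ⟨Z, γ, hZ, hγ, hbd⟩ := pw_bounds hf hS h0 h1
  have hlZ : 0 ≤ log Z := log_nonneg hZ
  refine ⟨2 * (1 + log Z) / γ, fun x hx => ?_⟩
  have hT : Summable fun g => ‖∑ i, f i i g‖ :=
    Summable.of_nonneg_of_le (fun _ => norm_nonneg _) (fun g => norm_sum_le _ _)
      (summable_sum fun i _ => hf.1 i i)
  refine norm_le_zero_iff.1 (le_of_forall_pos_le_add fun ε hε => ?_)
  rw [zero_add]
  -- a finite set carrying most of the mass
  obtain ⟨F', hF'⟩ := (summable_iff_vanishing_norm.1 hT) ε hε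
  have hF2 : ∑' g, (if g ∈ F' then 0 else ‖∑ i, f i i g‖) ≤ ε := by
    have hs : Summable fun g => if g ∈ F' then 0 else ‖∑ i, f i i g‖ :=
      Summable.of_nonneg_of_le (fun g => by split_ifs <;> positivity) (fun g => by
        split_ifs
        · positivity
        · exact le_rfl) hT
    refine hs.tsum_le_of_sum_le fun t => ?_
    have h9 : ∑ g ∈ t, (if g ∈ F' then 0 else ‖∑ i, f i i g‖) =
        ∑ g ∈ t \ F', ‖∑ i, f i i g‖ := by
      rw [Finset.sum_ite, Finset.sum_const_zero, zero_add]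
      refine Finset.sum_congr ?_ fun _ _ => rfl
      ext g
      simp [Finset.mem_sdiff]
    rw [h9]
    have h10 := hF' (t \ F') Finset.sdiff_disjoint
    rw [Real.norm_eq_abs] at h10
    exact (le_abs_self _).trans h10.le
  obtain ⟨Q, _, _, p₀, D, hp1, hp2, hp3⟩ := hx (F'.filter fun g => ¬ IsConj x g)
    fun g hg => (Finset.mem_filter.1 hg).2
  have := Fintype.ofFinite Q
  set y : Q := p₀ x with hy
  set c : ℝ := (Nat.card (Subgroup.centralizer {y}) : ℝ) with hc
  have hc1 : 1 ≤ c := by
    have : 0 < Nat.card (Subgroup.centralizer {y}) := Nat.card_pos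
    rw [hc]
    exact_mod_cast this
  have hlc : 0 ≤ log c := log_nonneg hc1
  have hn : 0 < orderOf y := orderOf_pos y
  have hφ0 : (0 : ℝ) < (orderOf y).totient := by exact_mod_cast Nat.totient_pos.2 hn
  have hS' : ∀ s ∈ S.image p₀, s⁻¹ ∈ S.image p₀ := by
    intro s hs
    obtain ⟨t, ht, rfl⟩ := Finset.mem_image.1 hs
    rw [← map_inv]
    exact Finset.mem_image_of_mem _ (hS t ht)
  have hzero : tau (ConjClasses.mk y) (pw p₀ f) = 0 := by
    refine tau_zero_of_prod (pw_idem p₀ hf) y ?_
    set U := (Finset.range (orderOf y)).filter (Nat.Coprime (orderOf y)) with hU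
    have hφ : U.card = (orderOf y).totient := (Nat.totient_eq_card_coprime _).symm
    have hle : ∏ a ∈ U, ((Nat.card (Subgroup.centralizer {y}) : ℝ) *
        ‖tau (ConjClasses.mk (y ^ a)⁻¹) (pw p₀ f)‖) ≤
        ∏ a ∈ U, (c * Z * exp (-(γ * (D a : ℝ) ^ 2))) := by
      refine Finset.prod_le_prod (fun _ _ => by positivity) fun a ha => ?_
      rw [← hc, mul_assoc]
      refine mul_le_mul_of_nonneg_left ((hbd Q p₀ _).2 (D a) fun m hm z hz hzC => ?_)
        (by linarith)
      rw [hU, Finset.mem_filter, Finset.mem_range] at ha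
      obtain ⟨l, l1, l2, l3⟩ := exists_lift S p₀ (isWd_inv hS' hz)
      refine hp2 a ha.1 ha.2 l (by omega) l2 ?_
      rw [ConjClasses.mem_carrier_iff_mk_eq, ConjClasses.mk_eq_mk_iff_isConj] at hzC
      rw [l3]
      obtain ⟨b, hb⟩ := isConj_iff.1 hzC
      refine isConj_iff.2 ⟨b⁻¹, ?_⟩
      have h3 : y ^ a = b * z⁻¹ * b⁻¹ := by
        rw [← inv_inv (y ^ a), ← hb]
        group
      rw [h3]
      group
    refine lt_of_le_of_lt hle ?_
    rw [Finset.prod_mul_distrib, Finset.prod_const, hφ, ← exp_sum]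
    have h5 : (c * Z) ^ (orderOf y).totient = exp ((orderOf y).totient * log (c * Z)) := by
      rw [mul_comm ((orderOf y).totient : ℝ), exp_mul, exp_log (by nlinarith), rpow_natCast]
    rw [h5, ← exp_add, exp_lt_one_iff, Finset.sum_neg_distrib, ← Finset.mul_sum]
    have h6 : 2 * (1 + log Z) * (1 + log c) * (orderOf y).totient ≤
        γ * ∑ a ∈ U, (D a : ℝ) ^ 2 := by
      have h7 := mul_le_mul_of_nonneg_left hp3 hγ.le
      refine le_trans (le_of_eq ?_) h7
      field_simp
    have h8 : log (c * Z) < 2 * (1 + log Z) * (1 + log c) := by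
      rw [log_mul (by linarith) (by linarith)]
      nlinarith [mul_nonneg hlZ hlc]
    have h9 := mul_lt_mul_of_pos_left h8 hφ0
    nlinarith
  -- comparison
  rw [pw_tau p₀ hf.1] at hzero
  have e1 : tau (ConjClasses.mk x) f = ∑' g, if IsConj x g then ∑ i, f i i g else 0 := by
    unfold tau
    rw [tsum_subtype (ConjClasses.mk x).carrier fun g => ∑ i, f i i g]
    refine tsum_congr fun g => ?_
    rw [Set.indicator_apply]
    by_cases hg : IsConj x g
    · rw [if_pos hg, if_pos]
      rw [ConjClasses.mem_carrier_iff_mk_eq, ConjClasses.mk_eq_mk_iff_isConj]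
      exact hg.symm
    · rw [if_neg hg, if_neg]
      rw [ConjClasses.mem_carrier_iff_mk_eq, ConjClasses.mk_eq_mk_iff_isConj]
      exact fun h => hg h.symm
  have s1 : Summable fun g => if IsConj x g then ∑ i, f i i g else 0 :=
    (ind_summable hT fun g => IsConj x g).of_norm
  have s2 : Summable fun g => if ConjClasses.mk (p₀ g) = ConjClasses.mk y then
      ∑ i, f i i g else 0 := (ind_summable hT fun g => ConjClasses.mk (p₀ g) = ConjClasses.mk y).of_norm
  have e2 : tau (ConjClasses.mk x) f = ∑' g, ((if IsConj x g then ∑ i, f i i g else 0) -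
      if ConjClasses.mk (p₀ g) = ConjClasses.mk y then ∑ i, f i i g else 0) := by
    rw [s1.tsum_sub s2, hzero, sub_zero, e1]
  rw [e2]
  have hle : ∀ g, ‖(if IsConj x g then ∑ i, f i i g else 0) -
      if ConjClasses.mk (p₀ g) = ConjClasses.mk y then ∑ i, f i i g else 0‖ ≤
      if g ∈ F' then 0 else ‖∑ i, f i i g‖ := by
    intro g
    by_cases hg : IsConj x g
    · have h9 : ConjClasses.mk (p₀ g) = ConjClasses.mk y := by
        rw [ConjClasses.mk_eq_mk_iff_isConj]
        exact (p₀.map_isConj hg).symm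
      rw [if_pos hg, if_pos h9, sub_self, norm_zero]
      split_ifs <;> positivity
    · by_cases hF : g ∈ F'
      · have h9 : ¬ ConjClasses.mk (p₀ g) = ConjClasses.mk y := by
          rw [ConjClasses.mk_eq_mk_iff_isConj]
          exact fun h => hp1 g (Finset.mem_filter.2 ⟨hF, hg⟩) h.symm
        rw [if_neg hg, if_neg h9, sub_self, norm_zero, if_pos hF]
      · rw [if_neg hg, zero_sub, norm_neg, if_neg hF]
        split_ifs
        · exact le_rfl
        · rw [norm_zero]
          positivity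
  have s3 : Summable fun g => if g ∈ F' then 0 else ‖∑ i, f i i g‖ :=
    Summable.of_nonneg_of_le (fun g => by split_ifs <;> positivity) (fun g => by
      split_ifs
      · positivity
      · exact le_rfl) hT
  exact (tsum_of_norm_bounded s3.hasSum hle).trans hF2

/-- **Vanishing of the traces from finite quotients**, mean form. -/
theorem vanishesAt_of_galFar {G : Type u} [Group G] {x : G}
    (h : ∀ S : Finset G, 1 ∈ S → (∀ s ∈ S, s⁻¹ ∈ S) → ∀ A : ℝ, GalFar S A x) :
    VanishesAt x := by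
  intro q e he
  obtain ⟨S, f, -, h1, h3, h4, h5, h6, h8⟩ := exists_decay_moment e he ∅
  rw [← h5]
  obtain ⟨A, hA⟩ := exists_far h4 h3 h6 h8
  exact hA x (h S h1 h3 A)

/-- All but finitely many classes of torsion elements of the finitely generated subgroups are far,
in finite quotients, compared to their centralizers there. -/
def TorFar (G : Type u) [Group G] : Prop :=
  ∀ S : Finset G, 1 ∈ S → (∀ s ∈ S, s⁻¹ ∈ S) → ∀ A : ℝ,
    {C : ConjClasses G | ∃ x ∈ Subgroup.closure (S : Set G), IsOfFinOrder x ∧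
      ConjClasses.mk x = C ∧ ¬ GalFar S A x}.Finite

theorem torFar_of_finite {G : Type u} [Group G]
    (h : ∀ S : Finset G, {C : ConjClasses (Subgroup.closure (S : Set G)) |
      ∀ g ∈ C.carrier, IsOfFinOrder g}.Finite) : TorFar G := by
  intro S _ _ A
  refine ((h S).image (ConjClasses.map (Subgroup.closure (S : Set G)).subtype)).subset ?_
  rintro C ⟨x, hxS, hx, rfl, -⟩
  refine ⟨ConjClasses.mk (⟨x, hxS⟩ : Subgroup.closure (S : Set G)), fun g hg => ?_, rfl⟩
  rw [ConjClasses.mem_carrier_iff_mk_eq, ConjClasses.mk_eq_mk_iff_isConj] at hg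
  obtain ⟨c, hc⟩ := isConj_iff.1 hg.symm
  rw [← hc]
  exact (MulAut.conj c).toMonoidHom.isOfFinOrder (Submonoid.isOfFinOrder_coe.1 hx)

/-- **The `ℓ¹`-Bass conjecture**, if the traces vanish at the elements of infinite order, and the
torsion elements are far in finite quotients up to finitely many classes. -/
theorem l1Bass_of_torFar {G : Type u} [Group G] (hinf : ∀ x : G, ¬ IsOfFinOrder x → VanishesAt x)
    (htor : TorFar G) : L1Bass G := by
  classical
  intro q e he
  obtain ⟨S, f, -, h1, h3, h4, h5, h6, h8⟩ := exists_decay_moment e he ∅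
  obtain ⟨A, hA⟩ := exists_far h4 h3 h6 h8
  refine ⟨(htor S h1 h3 A).toFinset, fun C hC g hg => ?_, fun C hC => ?_⟩
  · obtain ⟨x, -, hx, rfl, -⟩ := (htor S h1 h3 A).mem_toFinset.1 hC
    rw [ConjClasses.mem_carrier_iff_mk_eq, ConjClasses.mk_eq_mk_iff_isConj] at hg
    obtain ⟨c, hc⟩ := isConj_iff.1 hg.symm
    rw [← hc]
    exact (MulAut.conj c).toMonoidHom.isOfFinOrder hx
  · by_cases hCx : ∃ x ∈ C.carrier, x ∈ Subgroup.closure (S : Set G)
    · obtain ⟨x, hxC, hxS⟩ := hCx
      rw [ConjClasses.mem_carrier_iff_mk_eq] at hxC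
      by_cases hx : IsOfFinOrder x
      · rw [← h5, ← hxC]
        refine hA x ?_
        by_contra hfar
        exact hC ((htor S h1 h3 A).mem_toFinset.2 ⟨x, hxS, hx, hxC, hfar⟩)
      · rw [← hxC]
        exact hinf x hx q e he
    · rw [← h5]
      unfold tau
      refine (tsum_congr fun g => ?_).trans tsum_zero
      refine Finset.sum_eq_zero fun i _ => h6 i i g fun ⟨n, hn⟩ => hCx ⟨g, g.2, ?_⟩
      obtain ⟨l, -, l2, l3⟩ := hn
      rw [← l3]
      exact Subgroup.list_prod_mem _ fun y hy => Subgroup.subset_closure (l2 y hy)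

end Vale.Agent.P184.H174
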