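import Vale.Agent.P184.H38.PfD
import Vale.Agent.P184.H38.Arith
import Vale.Agent.P184.H505.PfData
import Vale.Agent.P184.H174.V

/-!
# P184 (helper174): the twisted functional of the field, and its estimate
-/

open Pointwise Vale.Agent.P184.H38 Vale.Agent.P184.H505

noncomputable section

namespace Vale.Agent.P184.H174

variable {G : Type*} [Group G] {S : Set G} {R : ℕ} {x : G} {φ : ℝ} {κ ψ : G → ℝ}

/-- The twisted functional of the field. -/
def pdB (h1 : (1 : G) ∈ S) (hR : 1 ≤ R)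
    (hκ : ∀ c p, Commute c x → p ∈ core x (S ^ R) → κ (c * p) = ψ c + κ p)
    (hφ : Real.sin (φ / 2) ≠ 0) (hx : ψ x = 1) : PfData G (ℂ × (G →₀ ℝ)) x where
  v := vv S R x φ κ
  Pf := wk fun a b => BB S R x φ a b
  nil := wk_nil _
  sub A u w B := wk_sub (BB S R x φ) u w A B
  sq A p B := pfd_sq (fun a b => BB S R x φ a b) (vv S R x φ κ)
    (fun p => BB_self hR p) A p B
  cyc p L hL := pfd_cyc (fun a b => BB S R x φ a b) (vv S R x φ κ) x
    (fun p q => BB_cyc h1 hR hκ hφ hx p q) p L hL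
  inv h hh L := pfd_inv (fun a b => BB S R x φ a b) (vv S R x φ κ) h
    (fun p q => BB_inv h1 hR hκ hh p q) L
  bd n := pfd_bd (fun a b => BB S R x φ a b) (vv S R x φ κ) _ (fun p q => abs_BB_le p q) n

/-- **(EST)**: the twisted functional, with its bound on the words of differences. -/
theorem estB (h1 : (1 : G) ∈ S) (hS : ∀ s ∈ S, s⁻¹ ∈ S) (hR : 1 ≤ R) {Λ : ℝ} (hΛ1 : 1 ≤ Λ)
    (hκ : ∀ c p, Commute c x → p ∈ core x (S ^ R) → κ (c * p) = ψ c + κ p)
    (hΛ : ∀ p ∈ core x (S ^ R), ∀ s ∈ S, p * s ∈ core x (S ^ R) → |κ (p * s) - κ p| ≤ Λ)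
    (hx : ψ x = 1) :
    ∃ P : PfData G (ℂ × (G →₀ ℝ)) x, ∀ (k : ℕ) (L : List (G × G × G)), L.length = k →
      |P.Pf (L.flatMap fun t => [P.v t.1 - P.v t.2.1, P.v t.2.1 - P.v t.2.2])| ≤
        Real.pi * Λ * R * (459 * √k / R) ^ k *
          (L.map fun t => len S R (t.1⁻¹ * t.2.1) * len S R (t.2.1⁻¹ * t.2.2)).prod := by
  have hR0 := R_pos hR
  have hR1 : (1 : ℝ) ≤ R := by exact_mod_cast hR
  have hΛ0 : 0 < Λ := by linarith
  have hpi := Real.pi_pos
  obtain ⟨φ, hφ⟩ : ∃ φ : ℝ, φ = 1 / (Λ * R) := ⟨_, rfl⟩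
  have hφ0 : 0 < φ := by
    rw [hφ]
    positivity
  have hφ1 : φ ≤ 1 := by
    rw [hφ, div_le_one (by positivity)]
    nlinarith
  have hφ2 : φ * Λ * R ≤ 1 := by
    rw [hφ]
    apply le_of_eq
    field_simp
  have hsin : 0 < Real.sin (φ / 2) :=
    Real.sin_pos_of_pos_of_lt_pi (by linarith) (by linarith [Real.pi_gt_three])
  have hsin2 : 1 / Real.sin (φ / 2) ≤ Real.pi * Λ * R := by
    have h2 := Real.mul_le_sin (x := φ / 2) (by linarith) (by linarith [Real.pi_gt_three])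
    have h3 : 0 < 2 / Real.pi * (φ / 2) := by positivity
    calc 1 / Real.sin (φ / 2) ≤ 1 / (2 / Real.pi * (φ / 2)) := one_div_le_one_div_of_le h3 h2
      _ = Real.pi * Λ * R := by
        rw [hφ]
        field_simp
  refine ⟨pdB h1 hR hκ hsin.ne' hx, fun k L hL => ?_⟩
  have hg : ∀ p q : G, 0 ≤ len S R (p⁻¹ * q) := fun p q => len_nonneg _
  have hu : ∀ p q : G, ‖(vv S R x φ κ p).1 - (vv S R x φ κ q).1‖ ≤
      8 / R * len S R (p⁻¹ * q) := by
    intro p q
    have h2 := uL h1 hS hR hΛ hφ0.le hφ2 p (p⁻¹ * q)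
    rw [mul_inv_cancel_left, norm_sub_rev] at h2
    exact h2
  have hw : ∀ p p' q q' : G, |frS (kA S R x) ((vv S R x φ κ p).2 - (vv S R x φ κ p').2)
      ((vv S R x φ κ q).2 - (vv S R x φ κ q').2)| ≤
      100 / R * len S R (p⁻¹ * p') * len S R (q⁻¹ * q') := by
    intro p p' q q'
    have h2 := sL (x := x) hS hR p (p⁻¹ * p') q (q⁻¹ * q')
    rw [mul_inv_cancel_left, mul_inv_cancel_left] at h2
    have h3 : frS (kA S R x) (ww S R x p - ww S R x p') (ww S R x q - ww S R x q') =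
        frS (kA S R x) (ww S R x p' - ww S R x p) (ww S R x q' - ww S R x q) := by
      rw [← neg_sub (ww S R x p') (ww S R x p), ← neg_sub (ww S R x q') (ww S R x q), map_neg,
        map_neg, LinearMap.neg_apply, neg_neg]
    change |frS (kA S R x) (ww S R x p - ww S R x p') (ww S R x q - ww S R x q')| ≤ _
    rw [h3]
    exact h2
  have h4 := flat_th (frS (kA S R x)) φ hsin (vv S R x φ κ) (fun p q => len S R (p⁻¹ * q)) hg
    (8 / R) (100 / R) (by positivity) (by positivity) hu hw k L hL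
  have h5 : 0 ≤ (L.map fun t => len S R (t.1⁻¹ * t.2.1) * len S R (t.2.1⁻¹ * t.2.2)).prod := by
    refine List.prod_nonneg ?_
    intro y hy
    obtain ⟨t, _, rfl⟩ := List.mem_map.1 hy
    exact mul_nonneg (len_nonneg _) (len_nonneg _)
  refine h4.trans (mul_le_mul_of_nonneg_right ?_ h5)
  exact mul_le_mul hsin2 (est_arith hR1 k) (by positivity) (by positivity)

end Vale.Agent.P184.H174
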