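import Vale.Agent.P184.H174.Pot
import Vale.Agent.P184.R3.UDefs
import Vale.Agent.P184.H250.PsiDef

/-!
# P184 (helper174): potentials on the core from the holonomy

`D` a subgroup of the centralizer of `x`, `ψ` additive on `D`. If `|ψ c| ≤ Λ m` whenever
`p` and `c p` (`c ∈ D`) are joined by a path of `m` steps in the core, then `ψ` has a potential on
the core which changes at most by `Λ` along its edges.
-/

open Pointwise Filter Vale.Agent.P184.Un

namespace Vale.Agent.P184.H174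

section loops

variable {G : Type*} [Group G] {x : G} {B S : Set G} (D : Subgroup G)

theorem relD_equiv (hD : ∀ d ∈ D, Commute d x) (hS : ∀ s ∈ S, s⁻¹ ∈ S) :
    Equivalence fun p q : core x B =>
      ∃ (c : G) (m : ℕ) (f : ℕ → G), c ∈ D ∧ IsPath x B S m (p : G) (c * q) f where
  refl p := ⟨1, 0, fun _ => p, D.one_mem, by
    rw [one_mul]
    exact IsPath.refl p.2⟩
  symm := by
    rintro p q ⟨c, m, f, hc, hf⟩
    refine ⟨c⁻¹, m, fun i => c⁻¹ * f (m - i), D.inv_mem hc, ?_⟩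
    have h := (hf.symm hS).mul_left (hD _ (D.inv_mem hc))
    rwa [inv_mul_cancel_left] at h
  trans := by
    rintro p q r ⟨c, m, f, hc, hf⟩ ⟨d, n, g, hd, hg⟩
    have h := hf.append (hg.mul_left (hD _ hc))
    rw [← mul_assoc] at h
    exact ⟨c * d, m + n, _, D.mul_mem hc hd, h⟩

/-- **potentials on the core**, from a bound of the holonomy of loops -/
theorem exists_potential_of_loop (hD : ∀ d ∈ D, Commute d x) {ψ : G → ℝ}
    (hψ : ∀ g ∈ D, ∀ h ∈ D, ψ (g * h) = ψ g + ψ h) (hS : ∀ s ∈ S, s⁻¹ ∈ S) {Λ : ℝ}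
    (hloop : ∀ (m : ℕ) (c p : G) (f : ℕ → G), c ∈ D → IsPath x B S m p (c * p) f →
      |ψ c| ≤ Λ * m) : ∃ κ : G → ℝ,
      (∀ c ∈ D, ∀ p ∈ core x B, κ (c * p) = ψ c + κ p) ∧
      ∀ p ∈ core x B, ∀ s ∈ S, p * s ∈ core x B → |κ (p * s) - κ p| ≤ Λ := by
  classical
  have hψ1 : ψ 1 = 0 := by
    have h := hψ 1 D.one_mem 1 D.one_mem
    rw [mul_one] at h
    linarith
  have hψi : ∀ c ∈ D, ψ c⁻¹ = -ψ c := by
    intro c hc
    have h := hψ c hc c⁻¹ (D.inv_mem hc)
    rw [mul_inv_cancel, hψ1] at h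
    linarith
  let r : Setoid (core x B) := ⟨_, relD_equiv D hD hS⟩
  let ρ : core x B → core x B := fun p => (Quotient.mk r p).out
  have hρ : ∀ p : core x B, ∃ (c : G) (m : ℕ) (f : ℕ → G), c ∈ D ∧
      IsPath x B S m (p : G) (c * (ρ p : G)) f := fun p =>
    (relD_equiv D hD hS).symm (Quotient.mk_out (s := r) p)
  have hρeq : ∀ p q : core x B, (∃ (c : G) (m : ℕ) (f : ℕ → G), c ∈ D ∧
      IsPath x B S m (p : G) (c * q) f) → ρ p = ρ q := by
    intro p q h
    have h1 : (Quotient.mk r p) = Quotient.mk r q := Quotient.sound h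
    change (Quotient.mk r p).out = (Quotient.mk r q).out
    rw [h1]
  let V : core x B → Set ℝ := fun p => {t | ∃ (c : G) (m : ℕ) (f : ℕ → G), c ∈ D ∧
      IsPath x B S m (p : G) (c * (ρ p : G)) f ∧ t = ψ c + Λ * m}
  have hne : ∀ p, (V p).Nonempty := fun p => by
    obtain ⟨c, m, f, hc, hf⟩ := hρ p
    exact ⟨_, c, m, f, hc, hf, rfl⟩
  have hbd : ∀ p, BddBelow (V p) := by
    intro p
    obtain ⟨c₀, m₀, f₀, hc₀, hf₀⟩ := hρ p
    refine ⟨ψ c₀ - Λ * m₀, ?_⟩
    rintro _ ⟨c, m, f, hc, hf, rfl⟩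
    have h1 := (hf₀.symm hS).append hf
    have h2 : c * (ρ p : G) = (c * c₀⁻¹) * (c₀ * (ρ p : G)) := by group
    rw [h2] at h1
    have h3 := hloop _ _ _ _ (D.mul_mem hc (D.inv_mem hc₀)) h1
    rw [hψ c hc c₀⁻¹ (D.inv_mem hc₀), hψi c₀ hc₀, Nat.cast_add] at h3
    have h4 := (abs_le.1 h3).1
    linarith
  -- moves
  have hmove : ∀ (p q : core x B) (d : G) (n : ℕ) (g : ℕ → G), d ∈ D →
      IsPath x B S n (p : G) (d * q) g → sInf (V p) ≤ ψ d + Λ * n + sInf (V q) := by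
    intro p q d n g hd hg
    have h0 : ρ p = ρ q := hρeq p q ⟨d, n, g, hd, hg⟩
    have h1 : ∀ t ∈ V q, sInf (V p) - (ψ d + Λ * n) ≤ t := by
      rintro _ ⟨c, m, f, hc, hf, rfl⟩
      have h2 := hg.append (hf.mul_left (hD d hd))
      rw [← mul_assoc, ← h0] at h2
      have h3 : ψ (d * c) + Λ * ((n + m : ℕ) : ℝ) ∈ V p :=
        ⟨d * c, n + m, _, D.mul_mem hd hc, h2, rfl⟩
      have h4 := csInf_le (hbd p) h3
      rw [hψ d hd c hc, Nat.cast_add] at h4
      linarith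
    have h5 := le_csInf (hne q) h1
    linarith
  refine ⟨fun p => if h : p ∈ core x B then sInf (V ⟨p, h⟩) else 0, ?_, ?_⟩
  · intro c hc p hp
    have hcp : c * p ∈ core x B := (conj_mem_core (hD c hc)).2 hp
    dsimp only
    rw [dif_pos hcp, dif_pos hp]
    have h1 := hmove ⟨c * p, hcp⟩ ⟨p, hp⟩ c 0 (fun _ => c * p) hc (IsPath.refl hcp)
    have h2 := hmove ⟨p, hp⟩ ⟨c * p, hcp⟩ c⁻¹ 0 (fun _ => p) (D.inv_mem hc)
      ⟨rfl, (inv_mul_cancel_left c p).symm, fun i hi => absurd hi (Nat.not_lt_zero i),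
        fun _ _ => hp⟩
    rw [hψi c hc] at h2
    rw [Nat.cast_zero, mul_zero, add_zero] at h1 h2
    linarith
  · intro p hp s hs hps
    dsimp only
    rw [dif_pos hps, dif_pos hp]
    have key : ∀ (p : G) (hp : p ∈ core x B) (s : G), s ∈ S → ∀ hps : p * s ∈ core x B,
        sInf (V ⟨p, hp⟩) ≤ Λ + sInf (V ⟨p * s, hps⟩) := by
      intro p hp s hs hps
      have h1 := hmove ⟨p, hp⟩ ⟨p * s, hps⟩ 1 1 (fun i => if i = 0 then p else p * s)
        D.one_mem ⟨if_pos rfl, by rw [if_neg one_ne_zero, one_mul], ?_, ?_⟩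
      · rw [hψ1, Nat.cast_one, mul_one, zero_add] at h1
        exact h1
      · intro i hi
        obtain rfl : i = 0 := by omega
        rw [if_pos rfl, if_neg (by omega), inv_mul_cancel_left]
        exact hs
      · intro i hi
        by_cases h : i = 0
        · rw [if_pos h]
          exact hp
        · rw [if_neg h]
          exact hps
    have h1 := key p hp s hs hps
    have h2 := key (p * s) hps s⁻¹ (hS s hs) (by rwa [mul_inv_cancel_right])
    have h3 : (⟨p * s * s⁻¹, by rwa [mul_inv_cancel_right]⟩ : core x B) = ⟨p, hp⟩ :=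
      Subtype.ext (mul_inv_cancel_right p s)
    rw [h3] at h2
    rw [abs_le]
    constructor <;> linarith

end loops

section hol

variable {G : Type*} [Group G]

/-- **Slow holonomy**: for every finite symmetric `S ∋ 1` and `ε > 0` there are arbitrarily large
`R`, a subgroup `D ∋ x` of the centralizer `C` of `x` with an invariant mean on `D \ C`, and a
real character `ψ` of `D` with `ψ x = 1` which is at most `exp (ε R ^ 2) m` at all `c ∈ D` such
that a path of `m` steps in `S` joins some `p` to `c p`, without leaving the set of the `q` with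
`q⁻¹ x q ∈ S ^ R`. -/
def PsiHol (x : G) : Prop :=
  ∀ S : Finset G, 1 ∈ S → (∀ s ∈ S, s⁻¹ ∈ S) → ∀ ε : ℝ, 0 < ε → ∀ R0 : ℕ, ∃ R ≥ R0,
    ∃ (D : Subgroup G) (ψ : G → ℝ), x ∈ D ∧ D ≤ Cen x ∧ CoAmenable (Cen x) D ∧
      (∀ g ∈ D, ∀ h ∈ D, ψ (g * h) = ψ g + ψ h) ∧ ψ x = 1 ∧
      ∀ (m : ℕ) (c : G) (p : ℕ → G), c ∈ D → p m = c * p 0 →
        (∀ i ≤ m, (p i)⁻¹ * x * p i ∈ (S : Set G) ^ R) → (∀ i < m, (p i)⁻¹ * p (i + 1) ∈ S) →
        |ψ c| ≤ Real.exp (ε * R ^ 2) * m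

theorem coAmenable_self (C : Subgroup G) : CoAmenable C C := by
  refine ⟨fun f => f 1, fun f g _ _ => rfl, fun f _ h => h 1 C.one_mem, fun r => rfl,
    fun f hf k hk => ?_⟩
  have h := hf.2 k hk 1 C.one_mem
  rw [mul_one] at h
  change f (1 * k) = f 1
  rw [one_mul, h]

theorem mem_Cen {x c : G} : c ∈ Cen x ↔ Commute c x := by
  rw [Cen, Subgroup.mem_centralizer_singleton_iff]
  exact Iff.rfl

theorem eventually_exp_ge (a : ℝ) {ε : ℝ} (hε : 0 < ε) :
    ∃ R1 : ℕ, ∀ R : ℕ, R1 ≤ R → a ≤ Real.exp (ε * (R : ℝ) ^ 2) := by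
  obtain ⟨n, hn⟩ := exists_nat_ge (a / ε)
  refine ⟨n + 1, fun R hR => ?_⟩
  have h1 : a ≤ n * ε := by rwa [div_le_iff₀ hε] at hn
  have h2 : ((n + 1 : ℕ) : ℝ) ≤ R := by exact_mod_cast hR
  push_cast at h2
  have hn0 : (0 : ℝ) ≤ n := Nat.cast_nonneg n
  have h3 : (n : ℝ) ≤ (R : ℝ) ^ 2 := by nlinarith
  have h4 : (n : ℝ) * ε ≤ ε * (R : ℝ) ^ 2 := by nlinarith
  linarith [Real.add_one_le_exp (ε * (R : ℝ) ^ 2)]

/-- A tame character of the centralizer has slow holonomy. -/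
theorem psiHol_of_psiTame {x : G} (h : H250.PsiTame x) : PsiHol x := by
  obtain ⟨ψ, hψ, hx, hS⟩ := h
  intro S h1 hinv ε hε R0
  obtain ⟨w, hw, hb, hw2⟩ := hS S
  have hx0 : 0 < |ψ x| := abs_pos.2 hx
  set b : ℕ := max S.card 2 with hbb
  have hb2 : 2 ≤ b := le_max_right _ _
  have hlb : 0 < Real.log b := Real.log_pos (by exact_mod_cast hb2)
  obtain ⟨m0, hm0⟩ := eventually_atTop.1 (hw2 (ε / 2 / Real.log b ^ 2) (by positivity))
  have hpow : Tendsto (fun R : ℕ => b ^ R) atTop atTop := tendsto_pow_atTop_atTop_of_one_lt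
    (by omega)
  obtain ⟨R1, hR1⟩ := eventually_atTop.1 (hpow.eventually_ge_atTop m0)
  obtain ⟨R2, hR2⟩ := eventually_exp_ge (1 / |ψ x|) (half_pos hε)
  set R : ℕ := max R0 (max R1 R2) with hR
  have r0 : R0 ≤ R := le_max_left _ _
  have r1 : R1 ≤ R := (le_max_left _ _).trans (le_max_right _ _)
  have r2 : R2 ≤ R := (le_max_right _ _).trans (le_max_right _ _)
  have hfin : ((S : Set G) ^ R).Finite ∧ ((S : Set G) ^ R).ncard ≤ b ^ R := by
    classical
    have e1 : ((S : Set G) ^ R) = ((S ^ R : Finset G) : Set G) := by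
      rw [Finset.coe_pow]
    refine ⟨by rw [e1]; exact Finset.finite_toSet _, ?_⟩
    rw [e1, Set.ncard_coe_finset]
    exact (Finset.card_pow_le).trans (Nat.pow_le_pow_left (le_max_left _ _) R)
  have hw3 : w ((S : Set G) ^ R).ncard / |ψ x| ≤ Real.exp (ε * (R : ℝ) ^ 2) := by
    have e2 : w ((S : Set G) ^ R).ncard ≤ Real.exp (ε / 2 * (R : ℝ) ^ 2) := by
      refine (hw hfin.2).trans ((hm0 _ (hR1 R r1)).trans ?_)
      refine Real.exp_le_exp.2 (le_of_eq ?_)
      push_cast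
      rw [Real.log_pow]
      field_simp
    calc w ((S : Set G) ^ R).ncard / |ψ x| = w ((S : Set G) ^ R).ncard * (1 / |ψ x|) := by ring
      _ ≤ Real.exp (ε / 2 * (R : ℝ) ^ 2) * Real.exp (ε / 2 * (R : ℝ) ^ 2) :=
        mul_le_mul e2 (hR2 R r2) (by positivity) (Real.exp_pos _).le
      _ = _ := by
        rw [← Real.exp_add]
        ring_nf
  refine ⟨R, r0, Cen x, fun g => ψ g / ψ x, mem_Cen.2 (Commute.refl x), le_rfl,
    coAmenable_self _, fun g hg h hh => ?_, div_self hx, fun m c p hc hpm hcore hstep => ?_⟩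
  · dsimp only
    rw [hψ g h (mem_Cen.1 hg) (mem_Cen.1 hh), add_div]
  · refine abs_psi_le_of_loop (x := x) (B := (S : Set G) ^ R) (S := (S : Set G))
      (ψ := fun g => ψ g / ψ x) (w := fun m => w m / |ψ x|) ?_ ?_ ?_ hfin.1 hw3
      (Real.exp_pos _).le m c (p 0) p (mem_Cen.1 hc) ⟨rfl, hpm, fun i hi => ?_, fun i hi => ?_⟩
    · intro g h hg hh
      rw [hψ g h hg hh, add_div]
    · exact fun m n hmn => div_le_div_of_nonneg_right (hw hmn) hx0.le
    · intro m c p hc hp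
      rw [abs_div]
      exact div_le_div_of_nonneg_right (hb m c p hc hp) hx0.le
    · exact_mod_cast hstep i hi
    · exact hcore i hi

end hol

end Vale.Agent.P184.H174
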