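import Vale.Agent.P184.H174.Hol
import Vale.Agent.P184.H38.CSDef

/-!
# P184 (helper174): slow holonomy implies core-slow
-/

open Pointwise Vale.Agent.P184.Un Vale.Agent.P184.H38

namespace Vale.Agent.P184.H174

theorem norm_exp_sub_exp_le (a b : ℝ) :
    ‖Complex.exp (a * Complex.I) - Complex.exp (b * Complex.I)‖ ≤ |a - b| := by
  have h2 : Complex.exp (a * Complex.I) - Complex.exp (b * Complex.I) =
      Complex.exp (b * Complex.I) * (Complex.exp (Complex.I * ((a - b : ℝ) : ℂ)) - 1) := by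
    rw [mul_sub, ← Complex.exp_add, mul_one]
    congr 2
    push_cast
    ring
  rw [h2, norm_mul, Complex.norm_exp_ofReal_mul_I, one_mul]
  exact Real.norm_exp_I_mul_ofReal_sub_one_le

theorem le_norm_one_sub_exp {φ : ℝ} (h0 : 0 ≤ φ) (h1 : φ ≤ 1) :
    2 / Real.pi * φ ≤ ‖1 - Complex.exp (φ * Complex.I)‖ := by
  have h2 := Real.mul_le_sin h0 (by linarith [Real.pi_gt_three])
  refine h2.trans ?_
  have h3 : (1 - Complex.exp (φ * Complex.I)).im = -Real.sin φ := by
    rw [Complex.sub_im, Complex.exp_ofReal_mul_I_im, Complex.one_im, zero_sub]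
  have h4 := Complex.abs_im_le_norm (1 - Complex.exp (φ * Complex.I))
  rw [h3, abs_neg] at h4
  exact (le_abs_self _).trans h4

/-- **Slow holonomy implies core-slow** (one mode). -/
theorem coreSlow_of_psiHol {G : Type*} [Group G] {x : G} (h : PsiHol x) : CoreSlow x := by
  intro S h1 hinv δ hδ ε hε R0
  obtain ⟨η, hη⟩ : ∃ η : ℝ, η = min 1 √δ := ⟨_, rfl⟩
  have hη0 : 0 < η := by
    rw [hη]
    exact lt_min zero_lt_one (Real.sqrt_pos.2 hδ)
  have hη1 : η ≤ 1 := by
    rw [hη]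
    exact min_le_left _ _
  have hηδ : η ^ 2 ≤ δ := by
    have h2 : η ≤ √δ := by
      rw [hη]
      exact min_le_right _ _
    calc η ^ 2 ≤ √δ ^ 2 := pow_le_pow_left₀ hη0.le h2 2
      _ = δ := Real.sq_sqrt hδ.le
  obtain ⟨R1, hR1⟩ := eventually_exp_ge (Real.pi / η) (half_pos hε)
  obtain ⟨R, hR, D, ψ, hx, hDC, hco, hψ, hψx, hloop⟩ := h S h1 hinv (ε / 2) (half_pos hε)
    (max R0 R1)
  obtain ⟨Λ, hΛ⟩ : ∃ Λ : ℝ, Λ = Real.exp (ε / 2 * (R : ℝ) ^ 2) := ⟨_, rfl⟩
  have hΛ1 : 1 ≤ Λ := by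
    rw [hΛ]
    exact Real.one_le_exp (by positivity)
  have hD : ∀ d ∈ D, Commute d x := fun d hd => mem_Cen.1 (hDC hd)
  obtain ⟨κ, hκ1, hκ2⟩ := exists_potential_of_loop (x := x) (B := (S : Set G) ^ R)
    (S := (S : Set G)) (Λ := Λ) D hD hψ (fun s hs => by exact_mod_cast hinv s hs)
    (fun m c p f hc hf => by
      have h2 := hloop m c f hc (by rw [hf.zero, hf.last]) hf.mem
        (fun i hi => by exact_mod_cast hf.step i hi)
      rwa [← hΛ] at h2)
  obtain ⟨φ, hφ⟩ : ∃ φ : ℝ, φ = η / Λ := ⟨_, rfl⟩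
  have hΛ0 : 0 < Λ := by linarith
  have hφ0 : 0 < φ := by
    rw [hφ]
    positivity
  have hφ1 : φ ≤ 1 := by
    rw [hφ, div_le_one hΛ0]
    linarith
  have hφΛ : φ * Λ = η := by
    rw [hφ]
    field_simp
  have hlow := le_norm_one_sub_exp hφ0.le hφ1
  have hpos : 0 < 2 / Real.pi * φ := by positivity
  refine ⟨R, (le_max_left _ _).trans hR, D, 1,
    fun d _ => Complex.exp ((φ * ψ d : ℝ) * Complex.I),
    fun p _ => Complex.exp ((φ * κ p : ℝ) * Complex.I), hx, hDC, hco, fun d _ j => ?_,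
    fun j => ?_, fun d hd p hp j => ?_, fun p hp => ?_, fun p hp s hs hps => ?_, ?_⟩
  · exact Complex.norm_exp_ofReal_mul_I _
  · dsimp only
    rw [hψx, mul_one]
    intro h3
    rw [h3, sub_self, norm_zero] at hlow
    linarith
  · dsimp only
    rw [hκ1 d hd p hp, mul_add, Complex.ofReal_add, add_mul, Complex.exp_add]
  · rw [Fin.sum_univ_one]
    dsimp only
    rw [Complex.norm_exp_ofReal_mul_I, one_pow]
  · rw [Fin.sum_univ_one]
    have h3 := norm_exp_sub_exp_le (φ * κ (p * s)) (φ * κ p)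
    have h4 : |φ * κ (p * s) - φ * κ p| ≤ η := by
      rw [← mul_sub, abs_mul, abs_of_pos hφ0, ← hφΛ]
      exact mul_le_mul_of_nonneg_left (hκ2 p hp s (by exact_mod_cast hs) hps) hφ0.le
    exact (pow_le_pow_left₀ (norm_nonneg _) (h3.trans h4) 2).trans hηδ
  · rw [Fin.prod_univ_one]
    dsimp only
    rw [hψx, mul_one]
    calc 2 / ‖1 - Complex.exp (φ * Complex.I)‖ ≤ 2 / (2 / Real.pi * φ) := by gcongr
      _ = Real.pi / η * Λ := by
        rw [hφ]
        field_simp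
      _ ≤ Real.exp (ε / 2 * (R : ℝ) ^ 2) * Real.exp (ε / 2 * (R : ℝ) ^ 2) := by
        rw [← hΛ]
        refine mul_le_mul_of_nonneg_right ?_ hΛ0.le
        rw [hΛ]
        exact hR1 R ((le_max_right _ _).trans hR)
      _ = _ := by
        rw [← Real.exp_add]
        ring_nf

theorem coreSlow_of_psiTame {G : Type*} [Group G] {x : G} (h : H250.PsiTame x) : CoreSlow x :=
  coreSlow_of_psiHol (psiHol_of_psiTame h)

end Vale.Agent.P184.H174
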