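import Mathlib

/-!
# P184 (helper174): potentials on the core

`G` a group, `x ∈ G`, `B` a finite subset of `G`; the core is the set of the `p` with
`p⁻¹ x p ∈ B`. `ψ` is a real character of the centralizer of `x`, with
`|ψ c| ≤ w m` if `p⁻¹ c p ∈ S ^ m`. Then there is `κ : G → ℝ` with `κ (c p) = ψ c + κ p` on the
core, and which changes at most by `Λ = w |B|` along the edges of the core.
-/

open Pointwise

namespace Vale.Agent.P184.H174

variable {G : Type*} [Group G]

/-- the core -/
def core (x : G) (B : Set G) : Set G := {p | p⁻¹ * x * p ∈ B}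

/-- `f` is a path of length `m` from `p` to `q` in the core -/
structure IsPath (x : G) (B S : Set G) (m : ℕ) (p q : G) (f : ℕ → G) : Prop where
  zero : f 0 = p
  last : f m = q
  step : ∀ i < m, (f i)⁻¹ * f (i + 1) ∈ S
  mem : ∀ i ≤ m, f i ∈ core x B

variable {x : G} {B S : Set G}

theorem conj_mem_core {c p : G} (hc : Commute c x) : c * p ∈ core x B ↔ p ∈ core x B := by
  have h : (c * p)⁻¹ * x * (c * p) = p⁻¹ * x * p := by
    have h1 : c⁻¹ * x * c = x := by
      rw [mul_assoc, ← hc.eq, inv_mul_cancel_left]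
    calc (c * p)⁻¹ * x * (c * p) = p⁻¹ * (c⁻¹ * x * c) * p := by group
      _ = _ := by rw [h1]
  change (c * p)⁻¹ * x * (c * p) ∈ B ↔ p⁻¹ * x * p ∈ B
  rw [h]

theorem IsPath.mul_left {m : ℕ} {p q c : G} {f : ℕ → G} (h : IsPath x B S m p q f)
    (hc : Commute c x) : IsPath x B S m (c * p) (c * q) fun i => c * f i where
  zero := by rw [h.zero]
  last := by rw [h.last]
  step i hi := by
    have h1 : (c * f i)⁻¹ * (c * f (i + 1)) = (f i)⁻¹ * f (i + 1) := by group
    rw [h1]
    exact h.step i hi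
  mem i hi := (conj_mem_core hc).2 (h.mem i hi)

theorem IsPath.refl {p : G} (hp : p ∈ core x B) : IsPath x B S 0 p p fun _ => p where
  zero := rfl
  last := rfl
  step i hi := absurd hi (Nat.not_lt_zero i)
  mem _ _ := hp

theorem IsPath.append {m n : ℕ} {p q r : G} {f g : ℕ → G} (hf : IsPath x B S m p q f)
    (hg : IsPath x B S n q r g) :
    IsPath x B S (m + n) p r fun i => if i < m then f i else g (i - m) where
  zero := by
    rcases Nat.eq_zero_or_pos m with rfl | hm
    · rw [if_neg (Nat.lt_irrefl 0), Nat.sub_zero, hg.zero, ← hf.last, hf.zero]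
    · rw [if_pos hm, hf.zero]
  last := by
    rw [if_neg (by omega), Nat.add_sub_cancel_left, hg.last]
  step i hi := by
    rcases lt_trichotomy (i + 1) m with h | h | h
    · rw [if_pos (by omega), if_pos h]
      exact hf.step i (by omega)
    · rw [if_pos (by omega), if_neg (by omega)]
      have h1 : i + 1 - m = 0 := by omega
      have h2 := hf.step i (by omega)
      rw [h1, hg.zero, ← hf.last, ← h]
      exact h2
    · rw [if_neg (by omega), if_neg (by omega)]
      have h1 : i + 1 - m = (i - m) + 1 := by omega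
      rw [h1]
      exact hg.step (i - m) (by omega)
  mem i hi := by
    by_cases h : i < m
    · rw [if_pos h]
      exact hf.mem i (by omega)
    · rw [if_neg h]
      exact hg.mem (i - m) (by omega)

theorem IsPath.symm (hS : ∀ s ∈ S, s⁻¹ ∈ S) {m : ℕ} {p q : G} {f : ℕ → G}
    (hf : IsPath x B S m p q f) : IsPath x B S m q p fun i => f (m - i) where
  zero := by rw [Nat.sub_zero, hf.last]
  last := by rw [Nat.sub_self, hf.zero]
  step i hi := by
    have h1 : m - i = (m - (i + 1)) + 1 := by omega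
    have h2 := hS _ (hf.step (m - (i + 1)) (by omega))
    rw [mul_inv_rev, inv_inv] at h2
    rw [h1]
    exact h2
  mem i hi := hf.mem (m - i) (by omega)

theorem IsPath.mem_pow {m : ℕ} {p q : G} {f : ℕ → G} (hf : IsPath x B S m p q f) :
    p⁻¹ * q ∈ S ^ m := by
  have key : ∀ i ≤ m, p⁻¹ * f i ∈ S ^ i := by
    intro i
    induction i with
    | zero =>
      intro _
      rw [hf.zero, inv_mul_cancel, pow_zero]
      exact Set.mem_one.2 rfl
    | succ i ih =>
      intro hi
      rw [pow_succ]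
      have h1 : p⁻¹ * f (i + 1) = p⁻¹ * f i * ((f i)⁻¹ * f (i + 1)) := by group
      rw [h1]
      exact Set.mul_mem_mul (ih (by omega)) (hf.step i (by omega))
  rw [← hf.last]
  exact key m le_rfl

variable {ψ : G → ℝ} (hψ : ∀ g h, Commute g x → Commute h x → ψ (g * h) = ψ g + ψ h)
include hψ

theorem psi_one : ψ 1 = 0 := by
  have h := hψ 1 1 (Commute.one_left x) (Commute.one_left x)
  rw [mul_one] at h
  linarith

theorem psi_inv {c : G} (hc : Commute c x) : ψ c⁻¹ = -ψ c := by
  have h := hψ c c⁻¹ hc hc.inv_left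
  rw [mul_inv_cancel, psi_one hψ] at h
  linarith

variable {w : ℕ → ℝ} (hw : Monotone w)
  (hb : ∀ (m : ℕ) (c p : G), Commute c x → p⁻¹ * c * p ∈ S ^ m → |ψ c| ≤ w m)
include hw hb

/-- **loops in the core** -/
theorem abs_psi_le_of_loop (hB : B.Finite) {Λ : ℝ} (hΛ : w B.ncard ≤ Λ) (hΛ0 : 0 ≤ Λ) :
    ∀ (m : ℕ) (c p : G) (f : ℕ → G), Commute c x → IsPath x B S m p (c * p) f →
      |ψ c| ≤ Λ * m := by
  intro m
  induction m using Nat.strong_induction_on with
  | _ m ih =>
  intro c p f hc hf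
  rcases Nat.eq_zero_or_pos m with rfl | hm
  · have h1 : c * p = p := by rw [← hf.last, hf.zero]
    have h2 : c = 1 := by simpa using h1
    rw [h2, psi_one hψ]
    simp
  by_cases hmN : m ≤ B.ncard
  · have h1 := hb m c p hc (by
      have := hf.mem_pow
      rwa [← mul_assoc] at this)
    have h2 : (1 : ℝ) ≤ m := by exact_mod_cast hm
    calc |ψ c| ≤ w m := h1
      _ ≤ w B.ncard := hw hmN
      _ ≤ Λ := hΛ
      _ = Λ * 1 := (mul_one Λ).symm
      _ ≤ Λ * m := mul_le_mul_of_nonneg_left h2 hΛ0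
  -- two points with the same configuration
  obtain ⟨i, hi, j, hj, hij, hcf⟩ : ∃ i ∈ Finset.range m, ∃ j ∈ Finset.range m, i ≠ j ∧
      (f i)⁻¹ * x * f i = (f j)⁻¹ * x * f j := by
    refine Finset.exists_ne_map_eq_of_card_lt_of_maps_to (t := hB.toFinset) ?_ ?_
    · rw [Finset.card_range, ← Set.ncard_eq_toFinset_card B hB]
      omega
    · intro i hi
      rw [Finset.coe_range, Set.mem_Iio] at hi
      rw [Set.Finite.coe_toFinset]
      exact hf.mem i hi.le
  wlog hlt : i < j generalizing i j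
  · exact this j hj i hi hij.symm hcf.symm (by omega)
  rw [Finset.mem_range] at hi hj
  set a : G := f j * (f i)⁻¹ with ha
  have hac : Commute a x := by
    have h1 : f j * ((f i)⁻¹ * x * f i) * (f j)⁻¹ = x := by
      rw [hcf]
      group
    have h2 : a * x = x * a := by
      have h3 : a * x * a⁻¹ = x := by
        rw [ha, mul_inv_rev, inv_inv]
        calc f j * (f i)⁻¹ * x * (f i * (f j)⁻¹) = f j * ((f i)⁻¹ * x * f i) * (f j)⁻¹ := by group
          _ = x := h1
      rw [mul_inv_eq_iff_eq_mul] at h3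
      exact h3
    exact h2
  have hfj : f j = a * f i := by rw [ha, inv_mul_cancel_right]
  -- the loop
  have h1 : |ψ a| ≤ Λ * ((j - i : ℕ) : ℝ) := by
    refine ih (j - i) (by omega) a (f i) (fun k => f (i + k)) hac ⟨rfl, ?_, ?_, ?_⟩
    · rw [show i + (j - i) = j by omega, hfj]
    · intro k hk
      exact hf.step (i + k) (by omega)
    · intro k hk
      exact hf.mem (i + k) (by omega)
  have h2 : |ψ (a⁻¹ * c)| ≤ Λ * ((m - (j - i) : ℕ) : ℝ) := by
    refine ih (m - (j - i)) (by omega) (a⁻¹ * c) p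
      (fun k => if k ≤ i then f k else a⁻¹ * f (k + (j - i))) (hac.inv_left.mul_left hc)
      ⟨?_, ?_, ?_, ?_⟩
    · rw [if_pos (Nat.zero_le i), hf.zero]
    · rw [if_neg (by omega), show m - (j - i) + (j - i) = m by omega, hf.last, mul_assoc]
    · intro k hk
      rcases lt_trichotomy k i with h | h | h
      · rw [if_pos (by omega), if_pos (by omega)]
        exact hf.step k (by omega)
      · subst h
        rw [if_pos le_rfl, if_neg (by omega)]
        have h3 : a⁻¹ = f k * (f j)⁻¹ := by rw [ha, mul_inv_rev, inv_inv]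
        rw [h3, show k + 1 + (j - k) = j + 1 by omega]
        have h4 : (f k)⁻¹ * (f k * (f j)⁻¹ * f (j + 1)) = (f j)⁻¹ * f (j + 1) := by group
        rw [h4]
        exact hf.step j (by omega)
      · rw [if_neg (by omega), if_neg (by omega)]
        have h4 : (a⁻¹ * f (k + (j - i)))⁻¹ * (a⁻¹ * f (k + 1 + (j - i))) =
            (f (k + (j - i)))⁻¹ * f (k + (j - i) + 1) := by
          rw [show k + 1 + (j - i) = k + (j - i) + 1 by omega]
          group
        rw [h4]
        exact hf.step _ (by omega)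
    · intro k hk
      by_cases h : k ≤ i
      · rw [if_pos h]
        exact hf.mem k (by omega)
      · rw [if_neg h, conj_mem_core hac.inv_left]
        exact hf.mem _ (by omega)
  have h3 : ψ c = ψ a + ψ (a⁻¹ * c) := by
    rw [← hψ a (a⁻¹ * c) hac (hac.inv_left.mul_left hc), mul_inv_cancel_left]
  have h4 : ((j - i : ℕ) : ℝ) + ((m - (j - i) : ℕ) : ℝ) = m := by
    rw [← Nat.cast_add]
    congr 1
    omega
  calc |ψ c| ≤ |ψ a| + |ψ (a⁻¹ * c)| := by
        rw [h3]
        exact abs_add_le _ _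
    _ ≤ Λ * ((j - i : ℕ) : ℝ) + Λ * ((m - (j - i) : ℕ) : ℝ) := add_le_add h1 h2
    _ = Λ * m := by rw [← mul_add, h4]

omit hw hb hψ in
/-- the points which are connected up to the centralizer -/
theorem rel_equiv (x : G) (B S : Set G) (hS : ∀ s ∈ S, s⁻¹ ∈ S) :
    Equivalence fun p q : core x B =>
      ∃ (c : G) (m : ℕ) (f : ℕ → G), Commute c x ∧ IsPath x B S m (p : G) (c * q) f where
  refl p := ⟨1, 0, fun _ => p, Commute.one_left x, by
    rw [one_mul]
    exact IsPath.refl p.2⟩
  symm := by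
    rintro p q ⟨c, m, f, hc, hf⟩
    refine ⟨c⁻¹, m, fun i => c⁻¹ * f (m - i), hc.inv_left, ?_⟩
    have h := (hf.symm hS).mul_left hc.inv_left
    rwa [inv_mul_cancel_left] at h
  trans := by
    rintro p q r ⟨c, m, f, hc, hf⟩ ⟨d, n, g, hd, hg⟩
    have h := hf.append (hg.mul_left hc)
    rw [← mul_assoc] at h
    exact ⟨c * d, m + n, _, hc.mul_left hd, h⟩

/-- **potentials on the core** -/
theorem exists_potential (hS : ∀ s ∈ S, s⁻¹ ∈ S) (hB : B.Finite) {Λ : ℝ} (hΛ : w B.ncard ≤ Λ)
    (hΛ0 : 0 ≤ Λ) : ∃ κ : G → ℝ,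
      (∀ c p, Commute c x → p ∈ core x B → κ (c * p) = ψ c + κ p) ∧
      ∀ p ∈ core x B, ∀ s ∈ S, p * s ∈ core x B → |κ (p * s) - κ p| ≤ Λ := by
  classical
  have hloop := abs_psi_le_of_loop hψ hw hb hB hΛ hΛ0
  let r : Setoid (core x B) := ⟨_, rel_equiv x B S hS⟩
  let ρ : core x B → core x B := fun p => (Quotient.mk r p).out
  have hρ : ∀ p : core x B, ∃ (c : G) (m : ℕ) (f : ℕ → G), Commute c x ∧
      IsPath x B S m (p : G) (c * (ρ p : G)) f := fun p =>
    (rel_equiv x B S hS).symm (Quotient.mk_out (s := r) p)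
  have hρeq : ∀ p q : core x B, (∃ (c : G) (m : ℕ) (f : ℕ → G), Commute c x ∧
      IsPath x B S m (p : G) (c * q) f) → ρ p = ρ q := by
    intro p q h
    have h1 : (Quotient.mk r p) = Quotient.mk r q := Quotient.sound h
    change (Quotient.mk r p).out = (Quotient.mk r q).out
    rw [h1]
  let V : core x B → Set ℝ := fun p => {t | ∃ (c : G) (m : ℕ) (f : ℕ → G), Commute c x ∧
      IsPath x B S m (p : G) (c * (ρ p : G)) f ∧ t = ψ c + Λ * m}
  have hne : ∀ p, (V p).Nonempty := fun p => by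
    obtain ⟨c, m, f, hc, hf⟩ := hρ p
    exact ⟨_, c, m, f, hc, hf, rfl⟩
  have hbd : ∀ p, BddBelow (V p) := by
    intro p
    obtain ⟨c₀, m₀, f₀, hc₀, hf₀⟩ := hρ p
    refine ⟨ψ c₀ - Λ * m₀, ?_⟩
    rintro _ ⟨c, m, f, hc, hf, rfl⟩
    have h1 := (hf₀.symm hS).append hf
    have h2 : c * (ρ p : G) = (c * c₀⁻¹) * (c₀ * (ρ p : G)) := by group
    rw [h2] at h1
    have h3 := hloop _ _ _ _ (hc.mul_left hc₀.inv_left) h1
    rw [hψ c c₀⁻¹ hc hc₀.inv_left, psi_inv hψ hc₀, Nat.cast_add] at h3
    have h4 := (abs_le.1 h3).1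
    linarith
  -- moves
  have hmove : ∀ (p q : core x B) (d : G) (n : ℕ) (g : ℕ → G), Commute d x →
      IsPath x B S n (p : G) (d * q) g → sInf (V p) ≤ ψ d + Λ * n + sInf (V q) := by
    intro p q d n g hd hg
    have h0 : ρ p = ρ q := hρeq p q ⟨d, n, g, hd, hg⟩
    have h1 : ∀ t ∈ V q, sInf (V p) - (ψ d + Λ * n) ≤ t := by
      rintro _ ⟨c, m, f, hc, hf, rfl⟩
      have h2 := hg.append (hf.mul_left hd)
      rw [← mul_assoc, ← h0] at h2
      have h3 : ψ (d * c) + Λ * ((n + m : ℕ) : ℝ) ∈ V p :=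
        ⟨d * c, n + m, _, hd.mul_left hc, h2, rfl⟩
      have h4 := csInf_le (hbd p) h3
      rw [hψ d c hd hc, Nat.cast_add] at h4
      linarith
    have h5 := le_csInf (hne q) h1
    linarith
  refine ⟨fun p => if h : p ∈ core x B then sInf (V ⟨p, h⟩) else 0, ?_, ?_⟩
  · intro c p hc hp
    have hcp : c * p ∈ core x B := (conj_mem_core hc).2 hp
    dsimp only
    rw [dif_pos hcp, dif_pos hp]
    have h1 := hmove ⟨c * p, hcp⟩ ⟨p, hp⟩ c 0 (fun _ => c * p) hc (IsPath.refl hcp)
    have h2 := hmove ⟨p, hp⟩ ⟨c * p, hcp⟩ c⁻¹ 0 (fun _ => p) hc.inv_left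
      ⟨rfl, (inv_mul_cancel_left c p).symm, fun i hi => absurd hi (Nat.not_lt_zero i),
        fun _ _ => hp⟩
    rw [psi_inv hψ hc] at h2
    rw [Nat.cast_zero, mul_zero, add_zero] at h1 h2
    linarith
  · intro p hp s hs hps
    dsimp only
    rw [dif_pos hps, dif_pos hp]
    have key : ∀ (p : G) (hp : p ∈ core x B) (s : G), s ∈ S → ∀ hps : p * s ∈ core x B,
        sInf (V ⟨p, hp⟩) ≤ Λ + sInf (V ⟨p * s, hps⟩) := by
      intro p hp s hs hps
      have h1 := hmove ⟨p, hp⟩ ⟨p * s, hps⟩ 1 1 (fun i => if i = 0 then p else p * s)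
        (Commute.one_left x) ⟨if_pos rfl, by rw [if_neg one_ne_zero, one_mul], ?_, ?_⟩
      · rw [psi_one hψ, Nat.cast_one, mul_one, zero_add] at h1
        exact h1
      · intro i hi
        obtain rfl : i = 0 := by omega
        rw [if_pos rfl, if_neg (by omega), inv_mul_cancel_left]
        exact hs
      · intro i hi
        by_cases h : i = 0
        · rw [if_pos h]
          exact hp
        · rw [if_neg h]
          exact hps
    have h1 := key p hp s hs hps
    have h2 := key (p * s) hps s⁻¹ (hS s hs) (by rwa [mul_inv_cancel_right])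
    have h3 : (⟨p * s * s⁻¹, by rwa [mul_inv_cancel_right]⟩ : core x B) = ⟨p, hp⟩ :=
      Subtype.ext (mul_inv_cancel_right p s)
    rw [h3] at h2
    rw [abs_le]
    constructor <;> linarith

end Vale.Agent.P184.H174
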